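import Crest.Agent.X261.Lim.Defs
import Crest.Agent.X261.Two.Kes
import Crest.Agent.X261.Ans.Man0
import Crest.Agent.X261.Psh.Hol71
import Crest.Agent.X261.BT.Inst
import Crest.Agent.X261.Cov.K
import Crest.Agent.X261.Ans.Man3
import Crest.Agent.X261.Sk.Defs

-- ▼ part X261/EnP/Defs
section

/-!
# Row 261, EN assembly (helper19), file `Defs`

`Dat` : everything that the construction of `Lim.Pre` consumes from the pole calculus.
-/

set_option autoImplicit false
set_option linter.dupNamespace false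

open Set Filter Topology

noncomputable section

namespace Crest.Agent.X261.EnP

open Crest.Agent.X261.Psh Crest.Agent.X261.Ans Crest.Agent.X261.Lim Crest.Agent.X261.Pole
  Crest.Agent.X261.Two

variable {E : Type} [NormedAddCommGroup E] [NormedSpace ℂ E] {M : Type} [TopologicalSpace M]

/-- foliated charts `k` with transverse coordinate `t k : O k → B k ⊆ F`, pole families `X k y`
along the plaques, log-weights `lam k` of the frames `dt`, and a two-point functional `U`. -/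
structure Dat (A : HA E M) (G : Type) [Group G] [MulAction G M] (η : A.ι → E → ℝ) (L : LS M)
    (F : Type) [NormedAddCommGroup F] [NormedSpace ℂ F] (k0 : ℝ) (p : ℕ) where
  κ : Type
  O : κ → Set M
  opn : ∀ k, IsOpen (O k)
  dsc : Dsc A (⋃ k, O k)ᶜ
  plr : Plr A (⋃ k, O k)ᶜ
  S : Set M
  thin : Thin A S
  σ : G → κ → κ
  O_inv : ∀ (g : G) k x, g • x ∈ O (σ g k) ↔ x ∈ O k
  S_inv : ∀ (g : G) x, x ∈ S → g • x ∈ S
  t : κ → M → F
  B : κ → Set F
  B_opn : ∀ k, IsOpen (B k)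
  t_mem : ∀ k, ∀ x ∈ O k, t k x ∈ B k
  t_hol : ∀ k j, DifferentiableOn ℂ (fun z => t k ((A.e j).symm z)) (ch A j (O k))
  t_inv : ∀ (g : G) k, ∀ x ∈ O k, t (σ g k) (g • x) = t k x
  /-- `lam k = log |c_k|² + wt_{i(k)}` -/
  lam : κ → M → ℝ
  lam_psh : ∀ k, WP A η (O k) fun x => ((-lam k x : ℝ) : EReal)
  lam_inv : ∀ (g : G) k, ∀ x ∈ O k, lam (σ g k) (g • x) = lam k x
  X : κ → F → PF L
  /-- transport of the constraints -/
  X_inv : ∀ (g : G) k, ∀ y ∈ B k, ∀ s h, ∀ f ∈ (X k y).F s h,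
    (fun x => f (g⁻¹ • x)) ∈ (X (σ g k) y).F s h
  /-- ASYM + FIN -/
  asy : ∀ k, ∀ x ∈ O k \ S, (X k (t k x)).Asy k0 p
  /-- fibre Harnack -/
  inc : ∀ k k', ∀ x ∈ (O k ∩ O k') \ S, ∀ c : ℝ, 0 < c → ∃ μ τ : ℝ, ∀ᶠ s in atTop, ∀ f ∈ L.Q,
    f ∈ (X k (t k x)).F s (c * s) → f ∈ (X k' (t k' x)).F (s + μ) (c * s - τ)
  /-- LAW -/
  law : ∀ k k', ∀ x ∈ (O k ∩ O k') \ S, ∀ ε : ℝ, 0 < ε → ∀ᶠ q : ℝ × M in atTop ×ˢ 𝓝 x, q.2 ∉ S →
    (X k (t k q.2)).dl k0 p q.1 0 - kc k0 p q.1 * lam k q.2 ≤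
      (X k' (t k' q.2)).dl k0 p q.1 0 - kc k0 p q.1 * lam k' q.2 + ε * kc k0 p q.1
  /-- (R) -/
  ray : ∀ k, ∀ y ∈ O k \ S, ∀ l : ℝ, 0 < l → ∀ m : ℕ, 0 < m → ∃ C : ℝ, ∀ᶠ s in atTop,
    ∀ x ∈ O k \ S, ‖t k x - t k y‖ ≤ Real.exp (-s / 2) →
      del (X k (t k x)) (X k (t k y)) k0 p l m (l * s) ≤
        mc k0 p l / m * (l * s) - Ph (X k (t k x)) k0 p l m + C
  D_psh : ∀ k, ∀ c : ℝ, 0 < c → IsPsh (B k) fun y => (X k y).Dl k0 p c 0
  D_inv : ∀ (g : G) k, ∀ y ∈ B k, ∀ c : ℝ, (X (σ g k) y).Dl k0 p c 0 = (X k y).Dl k0 p c 0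
  star : ∀ k k', ∀ x ∈ O k \ S, ∀ y ∈ O k' \ S, ∀ l : ℝ, 0 < l → ∀ m : ℕ, 0 < m →
    Star (X k (t k x)) (X k' (t k' y)) k0 p l m
  U : PF L → PF L → ℝ → ℕ → ℝ → EReal
  U_psh : ∀ k k', ∀ l : ℝ, 0 < l → ∀ m : ℕ, 0 < m → ∀ τ : ℝ,
    IsPsh (B k ×ˢ B k') fun q : F × F => U (X k q.1) (X k' q.2) l m τ
  U_eq : ∀ Y Y' : PF L, Y.Asy k0 p → Y'.Asy k0 p → ∀ l : ℝ, 0 < l → ∀ m : ℕ, 0 < m → ∀ τ : ℝ,
    U Y Y' l m τ = Xi Y Y' k0 p l m τ + ((Ph Y k0 p l m + Ph Y' k0 p l m : ℝ) : EReal)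
  U_symm : ∀ Y Y' l m τ, U Y Y' l m τ = U Y' Y l m τ
  U_inv : ∀ (g : G) k k', ∀ y ∈ B k, ∀ y' ∈ B k', ∀ l m τ,
    U (X (σ g k) y) (X (σ g k') y') l m τ = U (X k y) (X k' y') l m τ

end Crest.Agent.X261.EnP
end
end

-- ▼ part X261/Lim/B
section

/-!
# Row 261, package LIM (helper58), file `B`

Flat lemmas: extension across a pluripolar set, laws that hold at the good points only, tilting
of discs, relaxed limits in charts.
-/

set_option autoImplicit false
set_option linter.dupNamespace false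

open Set Filter Topology Metric MeasureTheory

noncomputable section

namespace Crest.Agent.X261.Lim

open Crest.Agent.R275.FL884 (DiscIn)
open Crest.Agent.X261.Psh

section top

variable {ι X : Type*} [TopologicalSpace X] {l : Filter ι} {u : ι → X → EReal}

/-- upper semicontinuous regularisation -/
def reg (f : X → EReal) (x : X) : EReal := limsup f (𝓝 x)

theorem ev_lt_reg {f : X → EReal} {x : X} {a : EReal} (h : reg f x < a) : ∀ᶠ y in 𝓝 x, f y < a :=
  eventually_lt_of_limsup_lt h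

theorem reg_le {f : X → EReal} {x : X} {a : EReal} (h : ∀ᶠ y in 𝓝 x, f y ≤ a) : reg f x ≤ a :=
  limsup_le_of_le (by isBoundedDefault) h

theorem le_reg (f : X → EReal) (x : X) : f x ≤ reg f x :=
  le_of_forall_gt_imp_ge_of_dense fun _ ha => (ev_lt_reg ha).self_of_nhds.le

theorem usc_reg (f : X → EReal) : UpperSemicontinuous (reg f) := by
  intro x a ha
  obtain ⟨b, h1, h2⟩ := exists_between ha
  filter_upwards [(ev_lt_reg h1).eventually_nhds] with y hy
  exact (reg_le (hy.mono fun _ h => h.le)).trans_lt h2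

theorem reg_le_of_usc {f g : X → EReal} {x : X} (hg : UpperSemicontinuousAt g x)
    (h : ∀ᶠ y in 𝓝 x, f y ≤ g y) : reg f x ≤ g x :=
  le_of_forall_gt_imp_ge_of_dense fun a ha => reg_le (by
    filter_upwards [h, hg a ha] with y h1 h2 using (h1.trans_lt h2).le)

theorem reg_congr {f g : X → EReal} {x : X} (h : f =ᶠ[𝓝 x] g) : reg f x = reg g x :=
  limsup_congr h

theorem reg_comp {Y : Type*} [TopologicalSpace Y] {f : X → EReal} {F : Y → X} {y : Y} {x : X}
    (h : map F (𝓝 y) = 𝓝 x) : reg (fun y => f (F y)) y = reg f x := by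
  unfold reg
  rw [← h, ← limsup_comp]; rfl

theorem rlim_comp {Y : Type*} [TopologicalSpace Y] {F : Y → X} {y : Y} {x : X}
    (h : map F (𝓝 y) = 𝓝 x) : rlim l (fun i y => u i (F y)) y = rlim l u x := by
  unfold rlim
  rw [← h, ← map_id (f := l), prod_map_map_eq, ← limsup_comp, map_id]; rfl

theorem rlim_congr {u' : ι → X → EReal} {x : X}
    (h : ∀ᶠ p in l ×ˢ 𝓝 x, u p.1 p.2 = u' p.1 p.2) : rlim l u x = rlim l u' x :=
  limsup_congr h

theorem rlim_add_le {x : X} {g : X → ℝ} (hg : ContinuousAt g x) :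
    rlim l (fun i y => u i y + (g y : ℝ)) x ≤ rlim l u x + (g x : ℝ) := by
  refine le_of_forall_gt_imp_ge_of_dense fun a ha => ?_
  obtain ⟨b, h1, h2⟩ := EReal.lt_iff_exists_real_btwn.1 ha
  obtain ⟨c, h3, h4⟩ := EReal.lt_iff_exists_real_btwn.1 (add_coe_lt_iff.1 h1)
  have h5 : g x < b - c := by have := EReal.coe_lt_coe_iff.1 h4; linarith
  refine le_trans (rlim_le ?_) h2.le
  filter_upwards [ev_lt_of_rlim_lt h3, tendsto_snd.eventually (hg.eventually (gt_mem_nhds h5))]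
    with p hp1 hp2
  exact add_coe_le_iff.2 (hp1.le.trans (EReal.coe_le_coe_iff.2 (by linarith)))

theorem add_coe_neg (a : EReal) (x : ℝ) : a + (x : EReal) + ((-x : ℝ) : EReal) = a := by
  rw [add_assoc, ← EReal.coe_add]; simp

theorem rlim_add {x : X} {g : X → ℝ} (hg : ContinuousAt g x) :
    rlim l (fun i y => u i y + (g y : ℝ)) x = rlim l u x + (g x : ℝ) := by
  refine le_antisymm (rlim_add_le hg) ?_
  have := rlim_add_le (l := l) (u := fun i y => u i y + (g y : ℝ)) hg.neg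
  simp only [Pi.neg_apply, add_coe_neg] at this
  refine (add_le_add this le_rfl).trans (le_of_eq ?_)
  have e := add_coe_neg (rlim l (fun i y => u i y + (g y : ℝ)) x) (-g x)
  rwa [neg_neg] at e

theorem reg_add {f : X → EReal} {x : X} {g : X → ℝ} (hg : ContinuousAt g x) :
    reg (fun y => f y + (g y : ℝ)) x = reg f x + (g x : ℝ) := by
  have e : ∀ f : X → EReal, reg f x = rlim (⊤ : Filter Unit) (fun _ => f) x := fun f => by
    unfold reg rlim
    rw [← map_snd_prod (⊤ : Filter Unit) (𝓝 x), ← limsup_comp, map_snd_prod]; rfl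
  rw [e, e f]
  exact rlim_add hg

theorem rlim_trunc [l.NeBot] (x : X) (c : EReal) :
    rlim l (fun i y => max (u i y) c) x = max (rlim l u x) c := by
  unfold rlim
  rw [limsup_max, limsup_const]

end top

variable {E : Type*} [NormedAddCommGroup E] [NormedSpace ℂ E]

/-- a law that holds at the good points holds at all points nearby -/
theorem ale_of_good {ι : Type*} {l : Filter ι} {V W S : Set E} (hV : IsOpen V) (hW : IsOpen W)
    {u u' : ι → E → EReal} (hu : ∀ᶠ i in l, IsPsh V (u i)) (hu' : ∀ᶠ i in l, IsPsh W (u' i))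
    (hS : ∀ x, Circ S x) (h : ∀ x ∈ (V ∩ W) \ S, ∀ ε : ℝ, 0 < ε →
      ∀ᶠ p in l ×ˢ 𝓝 x, p.2 ∉ S → u p.1 p.2 ≤ u' p.1 p.2 + ε) : ALe l ((V ∩ W) \ S) u u' := by
  intro x hx ε hε
  obtain ⟨A, hA, N, hN, h'⟩ := eventually_prod_iff.1 (h x hx ε hε)
  filter_upwards [tendsto_fst.eventually hA, tendsto_fst.eventually hu, tendsto_fst.eventually hu',
    tendsto_snd.eventually hN.eventually_nhds, tendsto_snd.eventually (hV.mem_nhds hx.1.1),
    tendsto_snd.eventually (hW.mem_nhds hx.1.2)] with p h1 h2 h3 h4 h5 h6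
  exact le_of_circ (g := fun y => u' p.1 y + (ε : EReal)) h2.sub (hV.mem_nhds h5) (hS _)
    ((h3.add_const ε).uscAt hW h6) (h4.mono fun y hy => h' h1 hy)

/-- tilting a disc -/
theorem tilt {D : Set E} (hD : IsOpen D) {z v : E} (hz : DiscIn D z v) {Q : Set E} (hQ : Dense Q)
    {δ : ℝ} (hδ : 0 < δ) : ∃ v' ∈ Q, DiscIn D z v' ∧ ‖v' - v‖ < δ := by
  have h1 : ∀ᶠ q in 𝓝 v ×ˢ 𝓝ˢ (closedBall (0 : ℂ) 1), z + q.2 • q.1 ∈ D := by
    refine (isCompact_closedBall (0 : ℂ) 1).mem_prod_nhdsSet_of_forall fun w hw => ?_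
    have t : Tendsto (fun q : E × ℂ => z + q.2 • q.1) (𝓝 v ×ˢ 𝓝 w) (𝓝 (z + w • v)) :=
      tendsto_const_nhds.add (tendsto_snd.smul tendsto_fst)
    exact t.eventually (hD.mem_nhds (hz w (by simpa using hw)))
  obtain ⟨A, hA, V, hV, h'⟩ := eventually_prod_iff.1 h1
  obtain ⟨v', h2, h3⟩ := hQ.inter_nhds_nonempty (inter_mem hA (ball_mem_nhds v hδ))
  exact ⟨v', h2, fun w hw => h' h3.1 (subset_of_mem_nhdsSet hV (by simpa using hw)),
    by simpa [dist_eq_norm] using h3.2⟩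

/-- the bound on a thickened compact set spreads to the centres of the discs -/
theorem bdd_disc {ι κ : Type*} {l : Filter ι} {V : κ → Set E} (hV : ∀ k, IsOpen (V k))
    {u : κ → ι → E → EReal} (hu : ∀ k, ∀ᶠ i in l, IsPsh (V k) (u k i)) {S : Set E}
    (hle : ∀ k k', ALe l ((V k ∩ V k') \ S) (u k) (u k'))
    (hS : ∀ z, Dense {v : E | {w : ℂ | z + w • v ∈ S}.Countable}) {C : Set E} {δ : ℝ}
    (hδ : 0 < δ) {b : ℝ} (hb : ∀ y ∈ cthickening δ C, ∃ k, y ∈ V k ∧ rlim l (u k) y ≤ b)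
    {z v : E} (hz : DiscIn (⋃ k, V k) z v) (hc : ∀ w : ℂ, ‖w‖ = 1 → z + w • v ∈ C) {k₀ : κ}
    (hk₀ : z ∈ V k₀) : rlim l (u k₀) z ≤ b := by
  obtain ⟨v', h1, h2, h3⟩ := tilt (isOpen_iUnion hV) hz (hS z) hδ
  refine disc_max hV hu hle h1 (fun w hw => mem_iUnion.1 (h2 w hw)) (fun w hw => hb _ ?_) hk₀
  refine mem_cthickening_of_dist_le _ _ _ _ (hc w hw) ?_
  rw [dist_eq_norm, add_sub_add_left_eq_sub, ← smul_sub, norm_smul, hw, one_mul]
  exact h3.le

/-- **removable singularities**: extension across a pluripolar set -/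
theorem ext_plr [FiniteDimensional ℂ E] {D W : Set E} (hD : IsOpen D) (hW : IsOpen W)
    {v u : E → EReal} (hv : IsPsh D v) (hd : Dn D v) (hZ : ∀ z ∈ D, z ∉ W → v z = ⊥)
    (hu : IsPsh (D ∩ W) u) (hu0 : ∀ z ∈ D, z ∉ W → u z = ⊥)
    (hb : ∀ x ∈ D, ∃ C : ℝ, ∀ᶠ y in 𝓝 x, u y ≤ C) : IsPsh D (reg u) := by
  borelize E
  let μ : Measure E := Measure.addHaar
  set w : ℝ → E → EReal := fun ε y => u y + (ε : EReal) * v y with hw
  have hvb : ∀ x ∈ D, ∃ C : ℝ, 0 ≤ C ∧ ∀ᶠ y in 𝓝 x, v y ≤ C := fun x hx => by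
    obtain ⟨c, h1, -⟩ := EReal.lt_iff_exists_real_btwn.1 (hv.lt_top x hx)
    exact ⟨max c 0, le_max_right _ _, (hv.uscAt hD hx _ h1).mono fun y hy =>
      hy.le.trans (EReal.coe_le_coe_iff.2 (le_max_left _ _))⟩
  have h1 : ∀ ε : ℝ, 0 < ε → IsPsh D (w ε) := by
    intro ε hε
    have hin : IsPsh (D ∩ W) (w ε) := hu.add ((hv.mono inter_subset_left).smul hε.le)
    have hbot : ∀ x ∈ D, x ∉ W → w ε x = ⊥ := fun x hx hxW => by simp [hw, hu0 x hx hxW]
    refine IsPsh.of_lsub (fun x hx => ?_) (fun x hx => ?_) fun x hx v' => ?_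
    · by_cases hxW : x ∈ W
      · exact (hin.uscAt (hD.inter hW) ⟨hx, hxW⟩).upperSemicontinuousWithinAt _
      · intro a ha
        obtain ⟨b, -, h3⟩ := EReal.lt_iff_exists_real_btwn.1 ha
        obtain ⟨C, hC⟩ := hb x hx
        have h4 : v x < (((b - C) / ε : ℝ) : EReal) := by
          rw [hZ x hx hxW]; exact EReal.bot_lt_coe _
        refine nhdsWithin_le_nhds ?_
        filter_upwards [hC, hv.uscAt hD hx _ h4] with y h5 h6
        refine lt_of_le_of_lt ((add_le_coe h5 (coe_mul_le hε.le h6.le)).trans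
          (EReal.coe_le_coe_iff.2 (le_of_eq ?_))) h3
        field_simp
        ring
    · by_cases hxW : x ∈ W
      · exact hin.lt_top x ⟨hx, hxW⟩
      · rw [hbot x hx hxW]; exact bot_lt_top
    · by_cases hxW : x ∈ W
      · exact hin.sub.freq ((hD.inter hW).mem_nhds ⟨hx, hxW⟩) v'
      · exact Frequently.of_forall fun r g _ _ => by rw [hbot x hx hxW]; exact bot_le
  have h2 : ∀ x ∈ D, rlim (𝓝[>] (0 : ℝ)) w x ≤ reg u x := by
    intro x hx
    refine le_of_forall_gt_imp_ge_of_dense fun a ha => ?_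
    obtain ⟨b, h3, h4⟩ := EReal.lt_iff_exists_real_btwn.1 ha
    refine le_trans (le_coe_of_forall fun δ hδ => rlim_le ?_) h4.le
    obtain ⟨C, hC0, hC⟩ := hvb x hx
    have t : Tendsto (fun ε : ℝ => ε * C) (𝓝[>] 0) (𝓝 0) := by
      have : Continuous fun ε : ℝ => ε * C := by fun_prop
      simpa using (this.tendsto 0).mono_left nhdsWithin_le_nhds
    filter_upwards [tendsto_fst.eventually (t.eventually (gt_mem_nhds hδ)),
      tendsto_fst.eventually self_mem_nhdsWithin, tendsto_snd.eventually hC,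
      tendsto_snd.eventually (ev_lt_reg h3)] with p h5 h6 h7 h8
    exact (add_le_coe h8.le (coe_mul_le (le_of_lt h6) h7)).trans
      (EReal.coe_le_coe_iff.2 (by linarith))
  have hrt : ∀ x ∈ D, reg u x < ⊤ := fun x hx => by
    obtain ⟨C, hC⟩ := hb x hx
    exact (reg_le hC).trans_lt (EReal.coe_lt_top _)
  have h3 : IsPsh D (rlim (𝓝[>] (0 : ℝ)) w) :=
    isPsh_rlim hD (eventually_nhdsWithin_of_forall fun ε hε => (h1 ε hε).sub)
      fun x hx => (h2 x hx).trans_lt (hrt x hx)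
  have h4 : ∀ y ∈ D, v y ≠ ⊥ → u y ≤ rlim (𝓝[>] (0 : ℝ)) w y := by
    intro y hy hvy
    refine le_trans (le_of_eq ?_) (limsup_le_rlim' y)
    lift v y to ℝ using ⟨(hv.lt_top y hy).ne, hvy⟩ with a ha
    refine (Tendsto.limsup_eq ?_).symm
    have t : Tendsto (fun ε : ℝ => ((ε * a : ℝ) : EReal)) (𝓝[>] 0) (𝓝 (0 : EReal)) := by
      have : Continuous fun ε : ℝ => ((ε * a : ℝ) : EReal) :=
        continuous_coe_real_ereal.comp (by fun_prop)
      simpa using (this.tendsto 0).mono_left nhdsWithin_le_nhds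
    have t2 := (EReal.continuousAt_add (p := (u y, 0)) (Or.inr (by simp))
      (Or.inr (by simp))).tendsto.comp (tendsto_const_nhds.prodMk_nhds t)
    simp only [add_zero] at t2
    refine t2.congr fun ε => ?_
    simp [hw, ← ha]
  have h5 : ∀ y ∈ D, u y ≤ rlim (𝓝[>] (0 : ℝ)) w y := by
    intro y hy
    by_cases hyW : y ∈ W
    · refine hu.le_of_ae_on μ (hD.inter hW) (h3.usc.mono inter_subset_left) ?_ ⟨hy, hyW⟩
      filter_upwards [hv.dn_ae μ hD hd] with z hz hz'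
      exact h4 z hz'.1 (hz hz'.1)
    · rw [hu0 y hy hyW]; exact bot_le
  exact h3.congr fun x hx => le_antisymm (h2 x hx)
    (reg_le_of_usc (usc_rlim x) (mem_of_superset (hD.mem_nhds hx) h5))

end Crest.Agent.X261.Lim
end
end

-- ▼ part X261/Lim/C
section

/-!
# Row 261, package LIM (helper58), file `C`

Asymptotically glued families on a manifold: the glued limit `gl`, its plurisubharmonicity across
the bad set and across `Z`, local bounds near `Z`, invariance.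
-/

set_option autoImplicit false
set_option linter.dupNamespace false
set_option linter.unusedSectionVars false

open Set Filter Topology Metric MeasureTheory

noncomputable section

namespace Crest.Agent.X261.Lim

open Crest.Agent.R275.FL884 (DiscIn)
open Crest.Agent.X261.Psh Crest.Agent.X261.Ans
open Crest.Agent.R281.Thn_280 (STh)

variable {E : Type} [NormedAddCommGroup E] [NormedSpace ℂ E] [FiniteDimensional ℂ E]
  {M : Type} [TopologicalSpace M] {A : HA E M} {η : A.ι → E → ℝ}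

theorem isOpen_ch (A : HA E M) (j : A.ι) {O : Set M} (hO : IsOpen O) : IsOpen (ch A j O) :=
  (A.e j).isOpen_inter_preimage_symm hO

theorem mem_ch {j : A.ι} {O : Set M} {x : M} (hx : x ∈ (A.e j).source) :
    A.e j x ∈ ch A j O ↔ x ∈ O := by
  simp [ch, (A.e j).map_source hx, (A.e j).left_inv hx]

theorem ch_univ (A : HA E M) (j : A.ι) : ch A j univ = (A.e j).target := by simp [ch]

theorem map_symm {j : A.ι} {z : E} (hz : z ∈ (A.e j).target) :
    map (A.e j).symm (𝓝 z) = 𝓝 ((A.e j).symm z) := (A.e j).symm.map_nhds_eq hz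

theorem tendsto_symm' {j : A.ι} {z : E} (hz : z ∈ (A.e j).target) :
    Tendsto (A.e j).symm (𝓝 z) (𝓝 ((A.e j).symm z)) := (map_symm hz).le

theorem cont_at {j : A.ι} (hη : ContinuousOn (η j) (A.e j).target) {z : E}
    (hz : z ∈ (A.e j).target) : ContinuousAt (η j) z :=
  hη.continuousAt ((A.e j).open_target.mem_nhds hz)

theorem rlim_chart {ι : Type*} {l : Filter ι} (u : ι → M → EReal) {j : A.ι}
    (hη : ContinuousOn (η j) (A.e j).target) {z : E} (hz : z ∈ (A.e j).target) :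
    rlim l (fun i z => u i ((A.e j).symm z) + (η j z : ℝ)) z =
      rlim l u ((A.e j).symm z) + (η j z : ℝ) := by
  rw [rlim_add (u := fun i z => u i ((A.e j).symm z)) (cont_at hη hz), rlim_comp (map_symm hz)]

theorem reg_chart (f : M → EReal) {j : A.ι} (hη : ContinuousOn (η j) (A.e j).target) {z : E}
    (hz : z ∈ (A.e j).target) : reg (fun z => f ((A.e j).symm z) + (η j z : ℝ)) z =
      reg f ((A.e j).symm z) + (η j z : ℝ) := by
  rw [reg_add (f := fun z => f ((A.e j).symm z)) (cont_at hη hz), reg_comp (map_symm hz)]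

theorem le_of_add_coe {a b : EReal} {x : ℝ} (h : a + x ≤ b + x) : a ≤ b := by
  have := add_le_add h (le_refl ((-x : ℝ) : EReal))
  rwa [add_coe_neg, add_coe_neg] at this

namespace WP

variable {O O' : Set M} {ψ ψ' : M → EReal}

theorem mono (h : WP A η O ψ) (hO : O' ⊆ O) : WP A η O' ψ :=
  fun j => (h j).mono (inter_subset_inter_right _ (preimage_mono hO))

theorem congr (h : WP A η O ψ) (he : EqOn ψ ψ' O) : WP A η O ψ' :=
  fun j => (h j).congr fun z hz => by simp only [he hz.2]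

theorem add_const (h : WP A η O ψ) (c : ℝ) : WP A η O fun x => ψ x + c :=
  fun j => ((h j).add_const c).congr fun z _ => by simp only [add_right_comm]

theorem lt_top (h : WP A η O ψ) {x : M} (hx : x ∈ O) : ψ x < ⊤ := by
  obtain ⟨j, hj⟩ := A.cover x
  have := (h j).lt_top _ ((mem_ch hj).2 hx)
  rw [(A.e j).left_inv hj] at this
  by_contra hn
  rw [not_lt, top_le_iff] at hn
  simp [hn] at this

theorem usc (h : WP A η O ψ) (hη : ∀ j, ContinuousOn (η j) (A.e j).target) (hO : IsOpen O)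
    {x : M} (hx : x ∈ O) : UpperSemicontinuousAt ψ x := by
  obtain ⟨j, hj⟩ := A.cover x
  have hz := (A.e j).map_source hj
  have h1 := reg_le_of_usc ((h j).uscAt (isOpen_ch A j hO) ((mem_ch hj).2 hx))
    (Eventually.of_forall fun _ => le_rfl)
  rw [reg_chart ψ (hη j) hz, (A.e j).left_inv hj] at h1
  exact fun a ha => ev_lt_reg ((le_of_add_coe h1).trans_lt ha)

theorem bdd (h : WP A η O ψ) (hη : ∀ j, ContinuousOn (η j) (A.e j).target) (hO : IsOpen O)
    {K : Set M} (hK : IsCompact K) (hKO : K ⊆ O) : ∃ C : ℝ, ∀ x ∈ K, ψ x ≤ C :=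
  exists_bound hK (fun _ hx => (h.usc hη hO (hKO hx)).upperSemicontinuousWithinAt _)
    fun _ hx => h.lt_top (hKO hx)

theorem of_nhds (h : ∀ j, ∀ z ∈ ch A j O, ∃ V ∈ 𝓝 z,
    IsPsh V fun z => ψ ((A.e j).symm z) + (η j z : ℝ)) : WP A η O ψ :=
  fun j => IsPsh.of_nhds (h j)

/-- an `η`-psh function is controlled by its values off a thin set -/
theorem le_of_circ (h : WP A η O ψ) (hη : ∀ j, ContinuousOn (η j) (A.e j).target) (hO : IsOpen O)
    {S : Set M} (hS : ∀ j z, Circ (ch A j S) z) {x : M} (hx : x ∈ O) {g : M → EReal}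
    (hg : UpperSemicontinuousAt g x) (hle : ∀ᶠ y in 𝓝 x, y ∉ S → ψ y ≤ g y) : ψ x ≤ g x := by
  obtain ⟨j, hj⟩ := A.cover x
  have hz := (A.e j).map_source hj
  have h1 := Lim.le_of_circ (g := reg fun z => g ((A.e j).symm z) + (η j z : ℝ)) (h j).sub
    ((isOpen_ch A j hO).mem_nhds ((mem_ch hj).2 hx)) (hS j _) (usc_reg _ _) (by
      filter_upwards [(HA.tendsto_symm hj).eventually hle, HA.ev_target hj] with z h2 h3 h4
      exact (add_le_add (h2 fun h5 => h4 ⟨h3, h5⟩) le_rfl).trans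
        (le_reg (fun z => g ((A.e j).symm z) + (η j z : ℝ)) z))
  rw [reg_chart g (hη j) hz, (A.e j).left_inv hj] at h1
  exact (le_of_add_coe h1).trans (reg_le_of_usc hg (Eventually.of_forall fun _ => le_rfl))

/-- on a connected manifold `-∞` is attained everywhere or on a nowhere dense set -/
theorem dn [PreconnectedSpace M] (h : WP A η univ ψ) (h0 : ∃ x, ψ x ≠ ⊥) : Dn univ ψ := by
  have key : ∀ x, (∀ᶠ y in 𝓝 x, y ∈ closure {y | ψ y ≠ ⊥}) ∨ ∀ᶠ y in 𝓝 x, ψ y = ⊥ := by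
    intro x
    obtain ⟨j, hj⟩ := A.cover x
    obtain ⟨r, hr, hB⟩ := HA.exists_ball hj univ_mem
    have hp := (h j).mono (D' := ball (A.e j x) r) hB
    by_cases hb : ∃ z ∈ ball (A.e j x) r, ψ ((A.e j).symm z) + (η j z : ℝ) ≠ ⊥
    · left
      have hd := hp.dn_of_conn isOpen_ball (convex_ball _ _).isPreconnected hb
      rw [HA.ev_chart hj]
      filter_upwards [ball_mem_nhds _ hr] with z hz
      refine mem_closure_of_frequently_of_tendsto ?_ (tendsto_symm' (hB hz).1)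
      exact (hd z hz).mono fun w hw h' => hw (by simp [h'])
    · right
      push Not at hb
      rw [HA.ev_chart hj]
      filter_upwards [ball_mem_nhds _ hr] with z hz
      simpa using hb z hz
  have hcl : IsClopen (closure {y | ψ y ≠ ⊥}) := by
    refine ⟨isClosed_closure, isOpen_iff_mem_nhds.2 fun x hx => (key x).resolve_right fun h' => ?_⟩
    obtain ⟨y, h1, h2⟩ := ((mem_closure_iff_frequently.1 hx).and_eventually h').exists
    exact h1 h2
  obtain ⟨x, hx⟩ := h0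
  exact fun y _ => mem_closure_iff_frequently.1
    ((hcl.eq_univ ⟨x, subset_closure hx⟩).ge (mem_univ y))

theorem ae_ne_bot [MeasurableSpace E] [BorelSpace E] (μ : Measure E) [μ.IsAddHaarMeasure]
    (h : WP A η univ ψ) (hd : Dn univ ψ) : Eqv.AE μ A fun x => ψ x ≠ ⊥ := by
  intro j
  have h1 : Dn (ch A j univ) fun z => ψ ((A.e j).symm z) + (η j z : ℝ) := by
    intro z hz
    have h2 := hd _ (mem_univ ((A.e j).symm z))
    rw [← map_symm hz.1, frequently_map] at h2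
    exact h2.mono fun w hw => by simpa using hw
  filter_upwards [(h j).dn_ae μ (isOpen_ch A j isOpen_univ) h1] with z hz hz' h'
  exact hz ⟨hz', mem_univ _⟩ (by simp [h'])

end WP

theorem Thin.circ {S : Set M} (h : Thin A S) (j : A.ι) (z : E) : Circ (ch A j S) z := by
  obtain ⟨v, hv⟩ := ((h j).dense_line z).nonempty
  exact circ_of_line hv

/-- the relaxed limit of an asymptotically glued family, off `Z` -/
def gl0 {ι κ : Type*} (l : Filter ι) (O : κ → Set M) (u : κ → ι → M → EReal) (x : M) : EReal :=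
  ⨆ k, ⨆ (_ : x ∈ O k), rlim l (u k) x

/-- the relaxed limit of an asymptotically glued family -/
def gl {ι κ : Type*} (l : Filter ι) (O : κ → Set M) (u : κ → ι → M → EReal) : M → EReal :=
  reg (gl0 l O u)

/-- asymptotically glued families -/
structure Fam {ι κ : Type*} (A : HA E M) (η : A.ι → E → ℝ) (l : Filter ι) (O : κ → Set M)
    (S : Set M) (u : κ → ι → M → EReal) : Prop where
  cont : ∀ j, ContinuousOn (η j) (A.e j).target
  opn : ∀ k, IsOpen (O k)
  circ : ∀ j z, Circ (ch A j S) z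
  psh : ∀ k, ∀ᶠ i in l, WP A η (O k) (u k i)
  law : ∀ k k', ∀ x ∈ (O k ∩ O k') \ S, ∀ ε : ℝ, 0 < ε →
    ∀ᶠ p in l ×ˢ 𝓝 x, p.2 ∉ S → u k p.1 p.2 ≤ u k' p.1 p.2 + ε

variable {ι κ : Type*} {l : Filter ι} {O : κ → Set M} {S : Set M} {u : κ → ι → M → EReal}

theorem gl0_bot {x : M} (hx : x ∉ ⋃ k, O k) : gl0 l O u x = ⊥ := by
  simp only [mem_iUnion, not_exists] at hx
  simp [gl0, hx]

theorem gl0_le_gl (x : M) : gl0 l O u x ≤ gl l O u x := le_reg _ _

theorem gl_le {C : EReal} (h : ∀ x, gl0 l O u x ≤ C) (x : M) : gl l O u x ≤ C :=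
  reg_le (Eventually.of_forall h)

theorem gl0_mono_filter {l' : Filter ι} (h : l' ≤ l) (x : M) : gl0 l' O u x ≤ gl0 l O u x :=
  iSup₂_mono fun _ _ => rlim_mono_filter h x

namespace Fam

theorem filter_mono (h : Fam A η l O S u) {l' : Filter ι} (hl : l' ≤ l) : Fam A η l' O S u :=
  ⟨h.cont, h.opn, h.circ, fun k => (h.psh k).filter_mono hl, fun k k' x hx ε hε =>
    (h.law k k' x hx ε hε).filter_mono (Filter.prod_mono hl le_rfl)⟩

theorem comp (h : Fam A η l O S u) {ι' : Type*} {l' : Filter ι'} {f : ι' → ι}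
    (hf : Tendsto f l' l) : Fam A η l' O S fun k i => u k (f i) :=
  ⟨h.cont, h.opn, h.circ, fun k => hf.eventually (h.psh k), fun k k' x hx ε hε =>
    (hf.prodMap tendsto_id).eventually (h.law k k' x hx ε hε)⟩

theorem add_const (h : Fam A η l O S u) (b : ι → ℝ) :
    Fam A η l O S fun k i x => u k i x + (b i : ℝ) :=
  ⟨h.cont, h.opn, h.circ, fun k => (h.psh k).mono fun _ hi => hi.add_const _,
    fun k k' x hx ε hε => (h.law k k' x hx ε hε).mono fun p hp hS => by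
      rw [add_right_comm]; exact add_le_add (hp hS) le_rfl⟩

theorem ale (h : Fam A η l O S u) (j : A.ι) (k k' : κ) :
    ALe l ((ch A j (O k) ∩ ch A j (O k')) \ ch A j S)
      (fun i z => u k i ((A.e j).symm z) + (η j z : ℝ))
      fun i z => u k' i ((A.e j).symm z) + (η j z : ℝ) := by
  refine ale_of_good (isOpen_ch A j (h.opn k)) (isOpen_ch A j (h.opn k'))
    ((h.psh k).mono fun _ hi => hi j) ((h.psh k').mono fun _ hi => hi j) (h.circ j)
    fun z hz ε hε => ?_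
  have h1 := h.law k k' _ ⟨⟨hz.1.1.2, hz.1.2.2⟩, fun h' => hz.2 ⟨hz.1.1.1, h'⟩⟩ ε hε
  filter_upwards [(tendsto_id.prodMap (tendsto_symm' hz.1.1.1)).eventually h1,
    tendsto_snd.eventually ((A.e j).open_target.mem_nhds hz.1.1.1)] with p h2 h3 h4
  rw [add_right_comm]
  exact add_le_add (h2 fun h5 => h4 ⟨h3, h5⟩) le_rfl

theorem rlim_le (h : Fam A η l O S u) {k k' : κ} {x : M} (hx : x ∈ O k) (hx' : x ∈ O k') :
    rlim l (u k) x ≤ rlim l (u k') x := by
  obtain ⟨j, hj⟩ := A.cover x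
  have hz := (A.e j).map_source hj
  have := rlim_le_rlim (isOpen_ch A j (h.opn k)) (isOpen_ch A j (h.opn k'))
    ((h.psh k).mono fun _ hi => (hi j).sub) (h.ale j k k') ((mem_ch hj).2 hx) ((mem_ch hj).2 hx')
    (h.circ j _)
  rw [rlim_chart _ (h.cont j) hz, rlim_chart _ (h.cont j) hz, (A.e j).left_inv hj] at this
  exact le_of_add_coe this

theorem gl0_eq (h : Fam A η l O S u) {k : κ} {x : M} (hx : x ∈ O k) :
    gl0 l O u x = rlim l (u k) x :=
  le_antisymm (iSup₂_le fun _ hx' => h.rlim_le hx' hx) (le_iSup₂_of_le k hx le_rfl)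

theorem gl_eq (h : Fam A η l O S u) {k : κ} {x : M} (hx : x ∈ O k) :
    gl l O u x = rlim l (u k) x :=
  le_antisymm (reg_le_of_usc (usc_rlim x) (mem_of_superset ((h.opn k).mem_nhds hx)
    fun _ hy => (h.gl0_eq hy).le)) ((h.gl0_eq hx).ge.trans (gl0_le_gl x))

/-- the glued limit is `η`-psh on all of `M` -/
theorem wp_gl (h : Fam A η l O S u) (hZ : Plr A (⋃ k, O k)ᶜ)
    (hb : ∀ x, ∃ C : ℝ, ∀ᶠ y in 𝓝 x, gl0 l O u y ≤ C) : WP A η univ (gl l O u) := by
  refine WP.of_nhds fun j z₀ hz₀ => ?_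
  obtain ⟨U, v, hU, hzU, hv, hd, hZv⟩ := hZ j z₀ hz₀.1
  have hD : IsOpen (U ∩ (A.e j).target) := hU.inter (A.e j).open_target
  refine ⟨_, hD.mem_nhds ⟨hzU, hz₀.1⟩, ?_⟩
  have hW := isOpen_ch A j (isOpen_iUnion h.opn)
  refine (ext_plr (u := fun z => gl0 l O u ((A.e j).symm z) + (η j z : ℝ)) hD hW
    (hv.mono inter_subset_left) (hd.mono inter_subset_left)
    (fun z hz hzW => hZv z hz.1 hz.2 fun h' => hzW ⟨hz.2, h'⟩) (IsPsh.of_nhds fun z hz => ?_)
    (fun z hz hzW => ?_) fun z hz => ?_).congr fun z hz => reg_chart _ (h.cont j) hz.2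
  · obtain ⟨k, hk⟩ := mem_iUnion.1 hz.2.2
    have hO := isOpen_ch A j (h.opn k)
    refine ⟨_, hO.mem_nhds ⟨hz.2.1, hk⟩, (isPsh_rlim hO ((h.psh k).mono fun _ hi => (hi j).sub)
      fun w hw => ?_).congr fun w hw => ?_⟩
    · rw [rlim_chart _ (h.cont j) hw.1, ← h.gl0_eq hw.2]
      obtain ⟨C, hC⟩ := hb ((A.e j).symm w)
      exact add_lt_top' (hC.self_of_nhds.trans_lt (EReal.coe_lt_top _)) (EReal.coe_lt_top _)
    · rw [rlim_chart _ (h.cont j) hw.1, ← h.gl0_eq hw.2]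
  · rw [gl0_bot fun h' => hzW ⟨hz.2, h'⟩]; simp
  · obtain ⟨C, hC⟩ := hb ((A.e j).symm z)
    refine ⟨C + (η j z + 1), ?_⟩
    filter_upwards [(tendsto_symm' hz.2).eventually hC,
      (cont_at (h.cont j) hz.2).eventually (gt_mem_nhds (lt_add_one _))] with w h1 h2
    exact add_le_coe h1 (EReal.coe_le_coe_iff.2 h2.le)

end Fam

/-- **local bounds**: near every point the glued limit is controlled by its values on a fixed
compact subset of `⋃ O k`, uniformly for all families -/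
theorem bdd_near (hη : ∀ j, ContinuousOn (η j) (A.e j).target) (hO : ∀ k, IsOpen (O k))
    (hZ : Dsc A (⋃ k, O k)ᶜ) (hS : Thin A S) (x₀ : M) : ∃ N ∈ 𝓝 x₀, ∃ K : Set M, IsCompact K ∧
      K ⊆ ⋃ k, O k ∧ ∃ B : ℝ, 0 ≤ B ∧ ∀ {ι : Type} {l : Filter ι} {u : κ → ι → M → EReal},
        Fam A η l O S u → ∀ C : ℝ, (∀ y ∈ K, gl0 l O u y ≤ C) →
          ∀ y ∈ N, gl0 l O u y ≤ ((C + B : ℝ) : EReal) := by
  have : ProperSpace E := FiniteDimensional.proper ℂ E
  obtain ⟨j, hj⟩ := A.cover x₀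
  have hz₀ := (A.e j).map_source hj
  set b := η j (A.e j x₀) with hb
  have h1 : ∀ᶠ z in 𝓝 (A.e j x₀), η j z ∈ Ioo (b - 1) (b + 1) :=
    (cont_at (hη j) hz₀).eventually (Ioo_mem_nhds (by linarith) (by linarith))
  obtain ⟨O', hO'1, hO'o, hO'm⟩ := _root_.mem_nhds_iff.1 h1
  obtain ⟨N, hN, C₀, hC₀, hC₁, hC₂, hd⟩ := hZ j _ hz₀ O' (hO'o.mem_nhds hO'm)
  have hW := isOpen_ch A j (isOpen_iUnion hO)
  obtain ⟨δ, hδ, hsub⟩ := hC₀.exists_cthickening_subset_open (hO'o.inter hW)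
    fun z hz => ⟨(hC₁ hz).1, (hC₁ hz).2, not_not.1 (hC₂ z hz)⟩
  refine ⟨(A.e j).source ∩ A.e j ⁻¹' (N ∩ O'), inter_mem ((A.e j).open_source.mem_nhds hj)
    (((A.e j).continuousAt hj).preimage_mem_nhds (inter_mem hN (hO'o.mem_nhds hO'm))),
    (A.e j).symm '' cthickening δ C₀, (hC₀.cthickening).image_of_continuousOn
      ((A.e j).continuousOn_symm.mono fun z hz => (hsub hz).2.1),
    by rintro _ ⟨z, hz, rfl⟩; exact (hsub hz).2.2, 2, by norm_num, ?_⟩
  intro ι l u h C hC y hy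
  by_cases hyO : y ∈ ⋃ k, O k
  swap
  · rw [gl0_bot hyO]; exact bot_le
  obtain ⟨k₀, hk₀⟩ := mem_iUnion.1 hyO
  have hz := (A.e j).map_source hy.1
  obtain ⟨v, hv1, hv2⟩ := hd _ hy.2.1 (by rw [(A.e j).left_inv hy.1]; exact not_not.2 hyO)
  have key := bdd_disc (V := fun k => ch A j (O k)) (fun k => isOpen_ch A j (hO k))
    (fun k => (h.psh k).mono fun _ hi => hi j) (h.ale j) (fun z => (hS j).dense_line z) hδ
    (b := C + (b + 1)) (C := C₀) (fun z hz => ?_) (z := A.e j y) (v := v) (fun w hw => ?_) hv2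
    ((mem_ch hy.1).2 hk₀)
  · rw [rlim_chart _ (hη j) hz, (A.e j).left_inv hy.1, ← h.gl0_eq hk₀] at key
    refine (add_coe_le_iff.1 key).trans (EReal.coe_le_coe_iff.2 ?_)
    have := (hO'1 hy.2.2).1
    linarith
  · obtain ⟨k, hk⟩ := mem_iUnion.1 (hsub hz).2.2
    refine ⟨k, ⟨(hsub hz).2.1, hk⟩, ?_⟩
    rw [rlim_chart _ (hη j) (hsub hz).2.1, ← h.gl0_eq hk]
    exact add_le_coe (hC _ ⟨z, hz, rfl⟩) (EReal.coe_le_coe_iff.2 (hO'1 (hsub hz).1).2.le)
  · obtain ⟨k, hk⟩ := mem_iUnion.1 (not_not.1 (hv1 w hw).2)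
    exact mem_iUnion.2 ⟨k, (hv1 w hw).1.2, hk⟩

/-- transport of the glued limit by a homeomorphism that permutes the family -/
theorem gl0_le_homeo (T : M ≃ₜ M) (σ : κ → κ) (hO : ∀ k, IsOpen (O k))
    (h1 : ∀ k, ∀ x ∈ O k, T x ∈ O (σ k)) (h2 : ∀ k i, ∀ x ∈ O k, u (σ k) i (T x) = u k i x)
    (x : M) : gl0 l O u x ≤ gl0 l O u (T x) := by
  refine iSup₂_le fun k hk => le_iSup₂_of_le (σ k) (h1 k x hk) (le_of_eq ?_)
  rw [← rlim_comp (T.map_nhds_eq x)]
  exact rlim_congr (tendsto_snd.eventually (((hO k).eventually_mem hk).mono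
    fun y hy => hy) |>.mono fun p hp => (h2 k p.1 p.2 hp).symm)

theorem gl_homeo (T : M ≃ₜ M) (h : ∀ x, gl0 l O u (T x) = gl0 l O u x) (x : M) :
    gl l O u (T x) = gl l O u x := by
  unfold gl
  rw [← reg_comp (T.map_nhds_eq x)]
  exact reg_congr (Eventually.of_forall h)

end Crest.Agent.X261.Lim
end
end

-- ▼ part X261/Lim/D
section

/-!
# Row 261, package LIM (helper58), file `D`

Invariance and normalisation of asymptotically glued families on a cocompact `G`-manifold;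
infinite convex combinations of `η`-psh functions.
-/

set_option autoImplicit false
set_option linter.dupNamespace false
set_option linter.unusedSectionVars false

open Set Filter Topology Metric MeasureTheory

noncomputable section

namespace Crest.Agent.X261.Lim

open Crest.Agent.X261.Psh Crest.Agent.X261.Ans

section inv

variable {M : Type} [TopologicalSpace M] {G : Type} [Group G] [MulAction G M]
  [ContinuousConstSMul G M] {ι κ : Type*} {l : Filter ι} {O : κ → Set M} {u : κ → ι → M → EReal}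

theorem gl0_inv (σ : G → κ → κ) (hO : ∀ k, IsOpen (O k))
    (h1 : ∀ (g : G) k, ∀ x ∈ O k, g • x ∈ O (σ g k))
    (h2 : ∀ (g : G) k i, ∀ x ∈ O k, u (σ g k) i (g • x) = u k i x) (g : G) (x : M) :
    gl0 l O u (g • x) = gl0 l O u x := by
  have key : ∀ (g : G) x, gl0 l O u x ≤ gl0 l O u (g • x) := fun g x =>
    gl0_le_homeo (Homeomorph.smul g) (σ g) hO (h1 g) (h2 g) x
  exact le_antisymm (by simpa using key g⁻¹ (g • x)) (key g x)

theorem gl_inv (σ : G → κ → κ) (hO : ∀ k, IsOpen (O k))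
    (h1 : ∀ (g : G) k, ∀ x ∈ O k, g • x ∈ O (σ g k))
    (h2 : ∀ (g : G) k i, ∀ x ∈ O k, u (σ g k) i (g • x) = u k i x) (g : G) (x : M) :
    gl l O u (g • x) = gl l O u x :=
  gl_homeo (Homeomorph.smul g) (gl0_inv σ hO h1 h2 g) x

end inv

variable {E : Type} [NormedAddCommGroup E] [NormedSpace ℂ E] [FiniteDimensional ℂ E]
  {M : Type} [TopologicalSpace M] {A : HA E M} {η : A.ι → E → ℝ}

/-- **normalisation** -/
theorem exists_norm {G : Type} [Group G] [MulAction G M] [ContinuousConstSMul G M] {ι κ : Type}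
    {l : Filter ι} {O : κ → Set M} {S : Set M} {ψ : κ → ι → M → EReal} (h : Fam A η l O S ψ)
    (hZ : Dsc A (⋃ k, O k)ᶜ) (hS : Thin A S) {K₀ : Set M} (hK₀ : IsCompact K₀)
    (hc : ∀ x : M, ∃ g : G, g • x ∈ K₀) (σ : G → κ → κ)
    (h1 : ∀ (g : G) k, ∀ x ∈ O k, g • x ∈ O (σ g k))
    (h2 : ∀ (g : G) k i, ∀ x ∈ O k, ψ (σ g k) i (g • x) = ψ k i x) {k₀ : κ} {x₀ : M}
    (hx₀ : x₀ ∈ O k₀) (hf : ∀ᶠ i in l, ψ k₀ i x₀ ≠ ⊥) :
    ∃ n : ι → ℝ, (∀ x, gl0 l O (fun k i x => ψ k i x + (n i : ℝ)) x ≤ 0) ∧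
      ∀ l' ≤ l, l'.NeBot → ∃ x, gl0 l' O (fun k i x => ψ k i x + (n i : ℝ)) x ≠ ⊥ := by
  classical
  have := HA.locallyCompact A
  choose N hN K hK hKO B hB0 hB using bdd_near h.cont h.opn hZ hS
  obtain ⟨t, -, ht⟩ := hK₀.elim_nhds_subcover N fun x _ => hN x
  have hKc : IsCompact (⋃ x ∈ t, K x) := t.isCompact_biUnion fun x _ => hK x
  have key : ∀ y ∈ ⋃ x ∈ t, K x, ∃ (k : κ) (Q : Set M), IsCompact Q ∧ y ∈ interior Q ∧ Q ⊆ O k := by
    intro y hy
    obtain ⟨x, -, hx⟩ := mem_iUnion₂.1 hy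
    obtain ⟨k, hk⟩ := mem_iUnion.1 (hKO x hx)
    obtain ⟨Q, hQ⟩ := exists_compact_subset (h.opn k) hk
    exact ⟨k, Q, hQ⟩
  have : Nonempty κ := ⟨k₀⟩
  choose! k Q hQ hQ' hQO using key
  obtain ⟨s, hs, hcv⟩ := hKc.elim_nhds_subcover (fun y => interior (Q y))
    fun y hy => isOpen_interior.mem_nhds (hQ' y hy)
  set b : ι → EReal := fun i => max (ψ k₀ i x₀) (⨆ y ∈ s, ⨆ x ∈ Q y, ψ (k y) i x) with hb
  set β : ι → ℝ := fun i => (b i).toReal with hβ
  have hleb : ∀ i, ∀ y ∈ s, ∀ x ∈ Q y, ψ (k y) i x ≤ b i := fun i y hy x hx =>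
    le_max_of_le_right (le_iSup₂_of_le y hy (le_iSup₂_of_le x hx le_rfl))
  have hβe : ∀ᶠ i in l, b i = β i := by
    filter_upwards [(eventually_all_finset s).2 fun y _ => h.psh (k y), h.psh k₀, hf]
      with i h3 h4 h5
    have : ∀ y ∈ s, ∃ c : ℝ, ∀ x ∈ Q y, ψ (k y) i x ≤ c := fun y hy =>
      (h3 y hy).bdd h.cont (h.opn _) (hQ y (hs y hy)) (hQO y (hs y hy))
    choose! c hc using this
    refine (EReal.coe_toReal (max_lt (h4.lt_top hx₀) ?_).ne
      ((bot_lt_iff_ne_bot.2 h5).trans_le (le_max_left _ _)).ne').symm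
    refine lt_of_le_of_lt (iSup₂_le fun y hy => iSup₂_le fun x hx => (hc y hy x hx).trans
      (EReal.coe_le_coe_iff.2 ?_)) (EReal.coe_lt_top (∑ y ∈ s, |c y|))
    exact (le_abs_self _).trans
      (Finset.single_le_sum (f := fun y => |c y|) (fun _ _ => abs_nonneg _) hy)
  set T : ℝ := ∑ x ∈ t, B x with hT
  have hF := h.add_const fun i => -(β i + T)
  refine ⟨fun i => -(β i + T), fun x => ?_, fun l' hl' hne => ?_⟩
  · obtain ⟨g, hg⟩ := hc x
    rw [← gl0_inv σ h.opn h1 (fun g k i x hx => by simp only [h2 g k i x hx]) g x]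
    obtain ⟨a, ha, ha'⟩ := mem_iUnion₂.1 (ht hg)
    refine (hB a hF (-T) (fun y hy => ?_) _ ha').trans ?_
    · obtain ⟨y', hy1, hy2⟩ := mem_iUnion₂.1 (hcv (mem_iUnion₂.2 ⟨a, ha, hy⟩))
      rw [hF.gl0_eq (hQO y' (hs y' hy1) (interior_subset hy2))]
      refine rlim_le_of (isOpen_interior.mem_nhds hy2) (hβe.mono fun i hi z hz => ?_)
      refine add_coe_le_iff.2 ((hleb i y' hy1 z (interior_subset hz)).trans (le_of_eq ?_))
      rw [hi]; congr 1; ring
    · have := Finset.single_le_sum (f := B) (fun x _ => hB0 x) ha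
      rw [← EReal.coe_zero, EReal.coe_le_coe_iff]
      linarith
  · by_contra hcon
    push Not at hcon
    have hF' := hF.filter_mono hl'
    have hh : ∀ (k : κ) (Q : Set M), IsCompact Q → Q ⊆ O k →
        ∀ᶠ i in l', ∀ x ∈ Q, ψ k i x ≤ ((β i - 1 : ℝ) : EReal) := by
      intro k Q hQ hQO
      refine (hartogs' hQ (g := fun _ => -T - 1) (fun _ _ => continuousAt_const)
        (u := fun i x => ψ k i x + ((-(β i + T) : ℝ) : EReal)) fun x hx => ?_).mono
        fun i hi x hx => (add_coe_le_iff.1 (hi x hx).le).trans (le_of_eq ?_)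
      · rw [← hF'.gl0_eq (hQO hx), hcon x]; exact EReal.bot_lt_coe _
      · congr 1; ring
    obtain ⟨i, ⟨h3, h4⟩, h5⟩ := ((((eventually_all_finset s).2 fun y hy =>
      hh (k y) (Q y) (hQ y (hs y hy)) (hQO y (hs y hy))).and
      (hh k₀ {x₀} isCompact_singleton (singleton_subset_iff.2 hx₀))).and
      (hβe.filter_mono hl')).exists
    have : b i ≤ ((β i - 1 : ℝ) : EReal) :=
      max_le (h4 x₀ rfl) (iSup₂_le fun y hy => iSup₂_le fun x hx => h3 y hy x hx)
    rw [h5, EReal.coe_le_coe_iff] at this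
    linarith

/-! ### infinite convex combinations -/

/-- `∑ w k * a k` for `w k ≥ 0`, `a k ≤ 0` -/
def wsum (w : ℕ → ℝ) (a : ℕ → EReal) : EReal := ⨅ N, ∑ k ∈ Finset.range N, (w k : EReal) * a k

section wsum

variable {w : ℕ → ℝ} {a : ℕ → EReal}

theorem coe_sum' {α : Type*} (s : Finset α) (f : α → ℝ) :
    ((∑ k ∈ s, f k : ℝ) : EReal) = ∑ k ∈ s, (f k : EReal) := by
  classical
  induction s using Finset.induction_on with
  | empty => simp
  | insert a s ha ih => rw [Finset.sum_insert ha, Finset.sum_insert ha, EReal.coe_add, ih]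

theorem wterm_le (hw : ∀ k, 0 ≤ w k) (ha : ∀ k, a k ≤ 0) (k : ℕ) : (w k : EReal) * a k ≤ 0 :=
  mul_nonpos_of_nonneg_of_nonpos (EReal.coe_nonneg.2 (hw k)) (ha k)

theorem wsum_anti (hw : ∀ k, 0 ≤ w k) (ha : ∀ k, a k ≤ 0) :
    Antitone fun N => ∑ k ∈ Finset.range N, (w k : EReal) * a k :=
  antitone_nat_of_succ_le fun N => by
    rw [Finset.sum_range_succ]
    exact (add_le_add le_rfl (wterm_le hw ha N)).trans (add_zero _).le

theorem tendsto_wsum (hw : ∀ k, 0 ≤ w k) (ha : ∀ k, a k ≤ 0) :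
    Tendsto (fun N => ∑ k ∈ Finset.range N, (w k : EReal) * a k) atTop (𝓝 (wsum w a)) :=
  tendsto_atTop_iInf (wsum_anti hw ha)

theorem wsum_le_zero : wsum w a ≤ 0 := iInf_le_of_le 0 (by simp)

theorem wsum_le (hw : ∀ k, 0 ≤ w k) (ha : ∀ k, a k ≤ 0) (k : ℕ) : wsum w a ≤ w k * a k := by
  refine iInf_le_of_le (k + 1) ?_
  rw [Finset.sum_range_succ]
  exact (add_le_add (Finset.sum_nonpos fun j _ => wterm_le hw ha j) le_rfl).trans (zero_add _).le

theorem coe_mul_add {c : ℝ} (hc : 0 ≤ c) (x y : EReal) : (c : EReal) * (x + y) = c * x + c * y :=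
  EReal.left_distrib_of_nonneg_of_ne_top (EReal.coe_nonneg.2 hc) (EReal.coe_ne_top c) x y

theorem tendsto_add' {α : Type*} {l : Filter α} {f g : α → EReal} {x y : EReal} (hx : x ≠ ⊤)
    (hy : y ≠ ⊤) (hf : Tendsto f l (𝓝 x)) (hg : Tendsto g l (𝓝 y)) :
    Tendsto (fun i => f i + g i) l (𝓝 (x + y)) :=
  (EReal.continuousAt_add (p := (x, y)) (Or.inl hx) (Or.inr hy)).tendsto.comp (hf.prodMk_nhds hg)

theorem wsum_add {b : ℕ → EReal} (hw : ∀ k, 0 ≤ w k) (ha : ∀ k, a k ≤ 0) (hb : ∀ k, b k ≤ 0) :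
    wsum w (fun k => a k + b k) = wsum w a + wsum w b := by
  refine tendsto_nhds_unique (tendsto_wsum hw fun k => add_nonpos (ha k) (hb k))
    ((tendsto_add' (wsum_le_zero.trans_lt EReal.zero_lt_top).ne
      (wsum_le_zero.trans_lt EReal.zero_lt_top).ne (tendsto_wsum hw ha)
      (tendsto_wsum hw hb)).congr fun N => ?_)
  rw [← Finset.sum_add_distrib]
  exact Finset.sum_congr rfl fun k _ => (coe_mul_add (hw k) _ _).symm

theorem wsum_single (hw : ∀ k, 0 ≤ w k) (k : ℕ) {x : EReal} (hx : x ≤ 0) :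
    wsum w (fun j => if j = k then x else 0) = w k * x := by
  refine tendsto_nhds_unique (tendsto_wsum hw fun j => by split_ifs; exacts [hx, le_rfl])
    (tendsto_const_nhds.congr' ?_)
  filter_upwards [eventually_gt_atTop k] with N hN
  rw [Finset.sum_eq_single k (fun j _ hj => by simp [hj]) (fun h => absurd (by simpa using hN) h)]
  simp

theorem wsum_const (hw : ∀ k, 0 ≤ w k) (h1 : HasSum w 1) {c : ℝ} (hc : c ≤ 0) :
    wsum w (fun _ => (c : EReal)) = c := by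
  refine tendsto_nhds_unique (tendsto_wsum hw fun _ => EReal.coe_nonpos.2 hc) ?_
  have := (continuous_coe_real_ereal.tendsto _).comp (h1.tendsto_sum_nat.mul_const c)
  rw [one_mul] at this
  refine this.congr fun N => ?_
  simp only [Function.comp, Finset.sum_mul, coe_sum', EReal.coe_mul]

theorem exists_weights (ha : ∀ k, a k ≤ 0) (hb : ∀ k, a k ≠ ⊥) :
    ∃ w : ℕ → ℝ, (∀ k, 0 < w k) ∧ HasSum w 1 ∧ wsum w a ≠ ⊥ := by
  set r : ℕ → ℝ := fun k => (a k).toReal with hr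
  have hra : ∀ k, a k = r k := fun k =>
    (EReal.coe_toReal ((ha k).trans_lt EReal.zero_lt_top).ne (hb k)).symm
  set c : ℕ → ℝ := fun k => (1 / 2) ^ k / (1 + |r k|) with hc
  have hc0 : ∀ k, 0 < c k := fun k => by positivity
  have hc1 : ∀ k, c k ≤ (1 / 2) ^ k := fun k =>
    div_le_self (by positivity) (by linarith [abs_nonneg (r k)])
  have hs : Summable c := Summable.of_nonneg_of_le (fun k => (hc0 k).le) hc1 summable_geometric_two
  have hT : 0 < ∑' k, c k := hs.tsum_pos (fun k => (hc0 k).le) 0 (hc0 0)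
  refine ⟨fun k => c k / ∑' k, c k, fun k => div_pos (hc0 k) hT, ?_, ?_⟩
  · have := hs.hasSum.div_const (∑' k, c k)
    rwa [div_self hT.ne'] at this
  · refine ne_of_gt (lt_of_lt_of_le (EReal.bot_lt_coe (-(2 / ∑' k, c k))) (le_iInf fun N => ?_))
    simp only [hra, ← EReal.coe_mul, ← coe_sum', EReal.coe_le_coe_iff]
    have h1 : ∀ k, -((1 / 2) ^ k / ∑' k, c k) ≤ c k / (∑' k, c k) * r k := fun k => by
      rw [div_mul_eq_mul_div, ← neg_div]
      refine div_le_div_of_nonneg_right ?_ hT.le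
      have h2 : c k * (1 + |r k|) = (1 / 2) ^ k := div_mul_cancel₀ _ (by positivity)
      nlinarith [neg_abs_le (r k), hc0 k]
    refine le_trans ?_ (Finset.sum_le_sum fun k _ => h1 k)
    rw [Finset.sum_neg_distrib, ← Finset.sum_div, neg_le_neg_iff]
    exact div_le_div_of_nonneg_right (sum_geometric_two_le N) hT.le

end wsum

theorem wp_wsum (hη : ∀ j, ContinuousOn (η j) (A.e j).target) {w : ℕ → ℝ} (hw : ∀ k, 0 ≤ w k)
    (h1 : HasSum w 1) {f : ℕ → M → EReal} (hf : ∀ k, WP A η univ (f k))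
    (h0 : ∀ k x, f k x ≤ 0) : WP A η univ fun x => wsum w fun k => f k x := by
  refine WP.of_nhds fun j z₀ hz₀ => ?_
  set C := η j z₀ + 1 with hC
  have h2 : ∀ᶠ z in 𝓝 z₀, z ∈ ch A j univ ∧ η j z < C :=
    (Eventually.and ((isOpen_ch A j isOpen_univ).mem_nhds hz₀)
      ((cont_at (hη j) hz₀.1).eventually (gt_mem_nhds (lt_add_one _))))
  refine ⟨_, h2, ?_⟩
  have h3 : ∀ k, ∀ z, η j z < C →
      f k ((A.e j).symm z) + (η j z : ℝ) + ((-C : ℝ) : EReal) ≤ 0 := fun k z hz => by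
    rw [add_assoc, ← EReal.coe_add]
    exact add_nonpos (h0 k _) (EReal.coe_nonpos.2 (by linarith))
  refine ((IsPsh.iInf_antitone (f := fun N z => ∑ k ∈ Finset.range N,
    (w k : EReal) * (f k ((A.e j).symm z) + (η j z : ℝ) + ((-C : ℝ) : EReal)))
    (fun N => IsPsh.sum _ fun k _ => (((hf k j).mono fun z hz => hz.1).add_const _).smul (hw k))
    fun z hz => wsum_anti hw fun k => h3 k z hz.2).add_const C).congr fun z hz => ?_
  have e : ⨅ N, ∑ k ∈ Finset.range N,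
      (w k : EReal) * (f k ((A.e j).symm z) + (η j z : ℝ) + ((-C : ℝ) : EReal)) =
      wsum w fun k => f k ((A.e j).symm z) + ((η j z + -C : ℝ) : EReal) := by
    simp only [wsum, add_assoc, EReal.coe_add]
  have h4 : η j z + -C ≤ 0 := by linarith [hz.2]
  simp only [e]
  rw [wsum_add hw (fun k => h0 k _) fun _ => EReal.coe_nonpos.2 h4, wsum_const hw h1 h4,
    add_assoc, ← EReal.coe_add]
  congr 2; ring

end Crest.Agent.X261.Lim
end
end

-- ▼ part X261/Lim/E
section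

/-!
# Row 261, package LIM (helper58), file `E`

The families attached to `P : Pre A G η`: one-point family, two-point family, slices; uniform
logarithmic pole of the slices.
-/

set_option autoImplicit false
set_option linter.dupNamespace false
set_option linter.unusedSectionVars false

open Set Filter Topology Metric MeasureTheory

noncomputable section

namespace Crest.Agent.X261.Lim

open Crest.Agent.R275.FL884 (DiscIn)
open Crest.Agent.X261.Psh Crest.Agent.X261.Ans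

/-! ### extended real arithmetic -/

theorem xi_close {a a' b b' c c' : EReal} {e₁ e₂ e₃ : ℝ} (hb : b ≠ ⊥) (hb' : b < ⊤) (hc : c ≠ ⊥)
    (hc' : c < ⊤) (hb1 : b' ≠ ⊥) (hc1 : c' ≠ ⊥) (h1 : a ≤ a' + e₁) (h2 : b' ≤ b + e₂)
    (h3 : c' ≤ c + e₃) : a - b - c ≤ a' - b' - c' + ((e₁ + e₂ + e₃ : ℝ) : EReal) := by
  lift b to ℝ using ⟨hb'.ne, hb⟩
  lift c to ℝ using ⟨hc'.ne, hc⟩
  lift b' to ℝ using ⟨(h2.trans_lt (EReal.coe_lt_top (b + e₂))).ne, hb1⟩
  lift c' to ℝ using ⟨(h3.trans_lt (EReal.coe_lt_top (c + e₃))).ne, hc1⟩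
  induction a' with
  | bot => simp at h1; simp [h1]
  | top => simp [-EReal.coe_add]
  | coe a' =>
    induction a with
    | bot => simp
    | top => exact absurd h1 (not_le.2 (EReal.coe_lt_top (a' + e₁)))
    | coe a =>
      norm_cast at h1 h2 h3 ⊢
      linarith

theorem xi_shift {a b c : EReal} (m n : ℝ) (hb : b ≠ ⊥) (hb' : b < ⊤) (hc : c ≠ ⊥) (hc' : c < ⊤) :
    a + ((m + n : ℝ) : EReal) - (b + m) - (c + n) = a - b - c := by
  lift b to ℝ using ⟨hb'.ne, hb⟩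
  lift c to ℝ using ⟨hc'.ne, hc⟩
  induction a with
  | bot => simp
  | top => rw [← EReal.coe_add, ← EReal.coe_add]; simp [-EReal.coe_add]
  | coe a => norm_cast; ring

theorem xi_add {a b c : EReal} (hb : b ≠ ⊥) (hb' : b < ⊤) (hc : c ≠ ⊥) (hc' : c < ⊤) :
    a - b - c + (b + c) = a := by
  lift b to ℝ using ⟨hb'.ne, hb⟩
  lift c to ℝ using ⟨hc'.ne, hc⟩
  induction a with
  | bot => simp
  | top => rw [← EReal.coe_add]; simp [-EReal.coe_add]
  | coe a => norm_cast; ring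

theorem xi_nonpos {a b c : EReal} (hb : b ≠ ⊥) (hb' : b < ⊤) (hc : c ≠ ⊥) (hc' : c < ⊤)
    (h : a ≤ b + c) : a - b - c ≤ 0 := by
  lift b to ℝ using ⟨hb'.ne, hb⟩
  lift c to ℝ using ⟨hc'.ne, hc⟩
  induction a with
  | bot => simp
  | top => exact absurd h (not_le.2 (EReal.coe_lt_top (b + c)))
  | coe a => norm_cast at h ⊢; linarith

theorem xi_slice {a b c : EReal} (n : ℝ) (hb : b ≠ ⊥) (hb' : b < ⊤) (hc : c ≠ ⊥) (hc' : c < ⊤) :
    a - b - c + (b + n) = a + ((n - c.toReal : ℝ) : EReal) := by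
  lift b to ℝ using ⟨hb'.ne, hb⟩
  lift c to ℝ using ⟨hc'.ne, hc⟩
  induction a with
  | bot => simp
  | top => rw [← EReal.coe_add]; simp [-EReal.coe_add, -EReal.coe_sub]
  | coe a => rw [EReal.toReal_coe]; norm_cast; ring

theorem limsup_le_close {α : Type*} {l : Filter α} {a b : α → EReal}
    (h : ∀ ε : ℝ, 0 < ε → ∀ᶠ i in l, a i ≤ b i + ε) : limsup a l ≤ limsup b l := by
  refine le_of_forall_gt_imp_ge_of_dense fun c hc => ?_
  obtain ⟨d, h1, h2⟩ := EReal.lt_iff_exists_real_btwn.1 hc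
  refine le_trans (le_coe_of_forall fun ε hε => limsup_le_of_le (by isBoundedDefault) ?_) h2.le
  filter_upwards [h ε hε, eventually_lt_of_limsup_lt h1] with i h3 h4
  exact h3.trans (add_le_coe h4.le le_rfl)

theorem le_liminf_close {α : Type*} {l : Filter α} {a b : α → EReal}
    (h : ∀ ε : ℝ, 0 < ε → ∀ᶠ i in l, a i ≤ b i + ε) : liminf a l ≤ liminf b l := by
  refine le_of_forall_lt_imp_le_of_dense fun c hc => ?_
  obtain ⟨d, h1, h2⟩ := EReal.lt_iff_exists_real_btwn.1 hc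
  obtain ⟨d', h3, h4⟩ := EReal.lt_iff_exists_real_btwn.1 h2
  refine h1.le.trans (le_liminf_of_le (by isBoundedDefault) ?_)
  filter_upwards [h (d' - d) (sub_pos.2 (EReal.coe_lt_coe_iff.1 h3)),
    eventually_lt_of_lt_liminf h4] with i h5 h6
  refine le_of_add_coe (x := d' - d) (le_trans (le_of_eq ?_) (h6.le.trans h5))
  rw [← EReal.coe_add]; congr 1; ring

theorem tendsto_close {a b : ℕ → EReal} {x : EReal}
    (h : ∀ ε : ℝ, 0 < ε → ∀ᶠ i in atTop, a i ≤ b i + ε)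
    (h' : ∀ ε : ℝ, 0 < ε → ∀ᶠ i in atTop, b i ≤ a i + ε) (hb : Tendsto b atTop (𝓝 x)) :
    Tendsto a atTop (𝓝 x) :=
  tendsto_of_le_liminf_of_limsup_le (hb.liminf_eq.ge.trans (le_liminf_close h'))
    ((limsup_le_close h).trans hb.limsup_eq.le)

theorem limsup_add_le' {a b : ℕ → EReal} {x : EReal} (hx : x ≠ ⊥) (hx' : x < ⊤)
    (hb : Tendsto b atTop (𝓝 x)) : limsup a atTop + x ≤ limsup (fun i => a i + b i) atTop := by
  lift x to ℝ using ⟨hx'.ne, hx⟩
  refine le_of_forall_gt_imp_ge_of_dense fun c hc => ?_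
  obtain ⟨d, h1, h2⟩ := EReal.lt_iff_exists_real_btwn.1 hc
  refine le_trans (add_coe_le_iff.2 (le_coe_of_forall fun ε hε =>
    limsup_le_of_le (by isBoundedDefault) ?_)) h2.le
  filter_upwards [eventually_lt_of_limsup_lt h1, hb.eventually (lt_mem_nhds
    (show ((x - ε : ℝ) : EReal) < x from EReal.coe_lt_coe_iff.2 (by linarith)))] with i h3 h4
  refine (add_coe_le_iff.1 ((add_le_add le_rfl h4.le).trans h3.le)).trans (le_of_eq ?_)
  congr 1; ring

variable {E : Type} [NormedAddCommGroup E] [NormedSpace ℂ E] [FiniteDimensional ℂ E]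
  {M : Type} [TopologicalSpace M] {A : HA E M} {η : A.ι → E → ℝ}

/-! ### products -/

theorem cont_e2 (hη : ∀ j, ContinuousOn (η j) (A.e j).target) (p : (A.prod A).ι) :
    ContinuousOn (e2 η p) ((A.prod A).e p).target :=
  ((hη p.1).comp continuousOn_fst fun _ hz => hz.1).add
    ((hη p.2).comp continuousOn_snd fun _ hz => hz.2)

theorem circ_prod {S : Set M} (h : Thin A S) (p : (A.prod A).ι) (z : E × E) :
    Circ (ch (A.prod A) p {q | q.1 ∈ S ∨ q.2 ∈ S}) z := by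
  obtain ⟨v, hv⟩ := ((h p.1).dense_line z.1).nonempty
  obtain ⟨v', hv'⟩ := ((h p.2).dense_line z.2).nonempty
  refine circ_of_line (v := (v, v')) ((hv.union hv').mono fun t ht => ?_)
  rcases ht.2 with h1 | h1
  · exact Or.inl ⟨ht.1.1, h1⟩
  · exact Or.inr ⟨ht.1.2, h1⟩

theorem plr_prod {κ : Type*} {O : κ → Set M} (h : Plr A (⋃ k, O k)ᶜ) :
    Plr (A.prod A) (⋃ k : κ × κ, O k.1 ×ˢ O k.2)ᶜ := by
  intro p z hz
  obtain ⟨U, v, hU, hzU, hv, hd, hZ⟩ := h p.1 z.1 hz.1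
  obtain ⟨U', v', hU', hzU', hv', hd', hZ'⟩ := h p.2 z.2 hz.2
  refine ⟨U ×ˢ U', fun q => v q.1 + v' q.2, hU.prod hU', ⟨hzU, hzU'⟩,
    (hv.comp_fst U').add (hv'.comp_snd U), fun q hq => ?_, fun q hq hq1 hq2 => ?_⟩
  · rw [nhds_prod_eq]
    intro hn
    obtain ⟨S, hS, T, hT, h'⟩ := eventually_prod_iff.1 hn
    obtain ⟨a, ha1, ha2⟩ := ((hd q.1 hq.1).and_eventually hS).exists
    obtain ⟨b, hb1, hb2⟩ := ((hd' q.2 hq.2).and_eventually hT).exists
    exact h' ha2 hb2 (by simp [ha1, hb1])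
  · by_cases h1 : (A.e p.1).symm q.1 ∈ ⋃ k, O k
    · by_cases h2 : (A.e p.2).symm q.2 ∈ ⋃ k, O k
      · obtain ⟨k, hk⟩ := mem_iUnion.1 h1
        obtain ⟨k', hk'⟩ := mem_iUnion.1 h2
        exact absurd (mem_iUnion.2 ⟨(k, k'), mk_mem_prod hk hk'⟩) hq2
      · simp [hZ' q.2 hq.2 hq1.2 h2]
    · simp [hZ q.1 hq.1 hq1.1 h1]

theorem wp_prod {O O' : Set M} {ψ ψ' : M → EReal} (h : WP A η O ψ) (h' : WP A η O' ψ') :
    WP (A.prod A) (e2 η) (O ×ˢ O') fun q => ψ q.1 + ψ' q.2 := fun p =>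
  ((((h p.1).comp_fst _).add ((h' p.2).comp_snd _)).mono
    fun _ hz => ⟨⟨hz.1.1, hz.2.1⟩, hz.1.2, hz.2.2⟩).congr fun z _ => by
      simp only [e2, EReal.coe_add]
      exact add_add_add_comm _ _ _ _

theorem WP.slice {O O' : Set M} {s : M × M → EReal} (h : WP (A.prod A) (e2 η) (O ×ˢ O') s)
    {y : M} (hy : y ∈ O') : WP A η O fun x => s (x, y) := by
  intro j
  obtain ⟨j', hj'⟩ := A.cover y
  have h1 := ((h (j, j')).slice_left (A.e j' y)).add_const (-η j' (A.e j' y))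
  refine (h1.mono fun z hz => ⟨⟨hz.1, (A.e j').map_source hj'⟩, hz.2, ?_⟩).congr fun z _ => ?_
  · change (A.e j').symm (A.e j' y) ∈ O'
    rwa [(A.e j').left_inv hj']
  · change s ((A.e j).symm z, (A.e j').symm (A.e j' y)) + ((η j z + η j' (A.e j' y) : ℝ) : EReal) +
      _ = _
    rw [(A.e j').left_inv hj', EReal.coe_add, ← add_assoc, add_coe_neg]

/-! ### uniform pole -/

theorem exists_ball_bd {j : A.ι} (hη : ContinuousOn (η j) (A.e j).target) {W : Set E} {z₀ : E}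
    (hz₀ : z₀ ∈ (A.e j).target) (hW : W ∈ 𝓝 z₀) : ∃ R C : ℝ, 0 < R ∧
      ∀ z ∈ closedBall z₀ R, z ∈ W ∧ |η j z| ≤ C := by
  obtain ⟨R, hR, hB⟩ := nhds_basis_closedBall.mem_iff.1 (inter_mem hW
    ((cont_at hη hz₀).abs.eventually (gt_mem_nhds (lt_add_one _))))
  exact ⟨R, _, hR, fun z hz => ⟨(hB hz).1, le_of_lt (hB hz).2⟩⟩

/-- Schwarz lemma: a logarithmic pole of an `η`-psh function `F ≤ 0` is locally uniform -/
theorem unif_pole [Nontrivial E] (hη : ∀ j, ContinuousOn (η j) (A.e j).target) {c : ℝ}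
    (hc : 0 < c) (j : A.ι) {z₀ : E} (hz₀ : z₀ ∈ (A.e j).target) : ∃ C : ℝ, ∃ V ∈ 𝓝 z₀,
      V ⊆ (A.e j).target ∧ ∀ F : M → EReal, WP A η univ F → (∀ x, F x ≤ 0) → ∀ w ∈ V,
        (∃ C' : ℝ, ∀ᶠ z in 𝓝[≠] w, F ((A.e j).symm z) + (η j z : ℝ) ≤
          ((C' + c * Real.log ‖z - w‖ : ℝ) : EReal)) →
        ∀ z ∈ V, ∀ r : ℝ, 0 < r → ‖z - w‖ ≤ r →
          F ((A.e j).symm z) ≤ ((c * Real.log r + C : ℝ) : EReal) := by
  obtain ⟨R, C, hR, hB⟩ := exists_ball_bd (hη j) hz₀ ((A.e j).open_target.mem_nhds hz₀)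
  refine ⟨2 * C - c * Real.log (2 * R / 3), ball z₀ (R / 3), ball_mem_nhds _ (by positivity),
    fun z hz => (hB z (closedBall_subset_closedBall (by linarith) (ball_subset_closedBall hz))).1,
    fun F hF h0 w hw ⟨C', hC'⟩ => ?_⟩
  have hsub : closedBall w (2 * R / 3) ⊆ closedBall z₀ R := fun z hz => by
    have := dist_triangle z w z₀
    rw [mem_closedBall] at hz ⊢
    rw [mem_ball] at hw
    linarith
  have hp := hF j
  rw [ch_univ] at hp
  have key : ∀ z, z ≠ w → ‖z - w‖ ≤ 2 * R / 3 → ∀ r : ℝ, ‖z - w‖ ≤ r →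
      F ((A.e j).symm z) + (η j z : ℝ) ≤
        ((C + c * (Real.log r - Real.log (2 * R / 3)) : ℝ) : EReal) := by
    intro z hz h1 r h2
    refine (hp.schwarz' w (fun y hy => (hB y (hsub hy.1)).1) hC' (b := C) (fun y hy => ?_) hz
      h1).trans (EReal.coe_le_coe_iff.2 ?_)
    · have := (abs_le.1 (hB y (hsub (by rw [mem_closedBall, dist_eq_norm, hy]))).2).2
      simpa using add_le_coe (x := 0) (h0 _) (EReal.coe_le_coe_iff.2 this)
    · have := Real.log_le_log (norm_pos_iff.2 (sub_ne_zero.2 hz)) h2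
      nlinarith
  intro z hz r hr hzr
  have hzw : ‖z - w‖ ≤ 2 * R / 3 := by
    have := dist_triangle_right z w z₀
    rw [mem_ball] at hz hw
    rw [← dist_eq_norm]
    linarith
  have h1 : F ((A.e j).symm z) + (η j z : ℝ) ≤
      ((C + c * (Real.log r - Real.log (2 * R / 3)) : ℝ) : EReal) := by
    by_cases he : z = w
    · subst he
      obtain ⟨v, hv⟩ := exists_norm_eq E (c := min r (2 * R / 3)) (by positivity)
      have e : ∀ t : ℂ, ‖z + t • v - z‖ = ‖t‖ * min r (2 * R / 3) := fun t => by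
        rw [add_sub_cancel_left, norm_smul, hv]
      have hm : 0 < min r (2 * R / 3) := by positivity
      refine hp.sub.le_const (v := v) (fun t ht => (hB _ (hsub ?_)).1) fun t ht => key _ ?_ ?_ r ?_
      · rw [mem_closedBall, dist_eq_norm, e]
        exact (mul_le_of_le_one_left hm.le ht).trans (min_le_right _ _)
      · intro h'
        have := e t
        rw [h', ht] at this
        simp only [sub_self, norm_zero, one_mul] at this
        exact hm.ne this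
      · rw [e, ht, one_mul]; exact min_le_right _ _
      · rw [e, ht, one_mul]; exact min_le_left _ _
    · exact key z he hzw r hzr
  refine (add_coe_le_iff.1 h1).trans (EReal.coe_le_coe_iff.2 ?_)
  have := (abs_le.1 (hB z (closedBall_subset_closedBall (by linarith)
    (ball_subset_closedBall hz))).2).1
  linarith

namespace Pre

variable {G : Type} [Group G] [MulAction G M] (P : Pre A G η)
  (hη : ∀ j, ContinuousOn (η j) (A.e j).target)
include hη

theorem fam₁ (q : ℕ) : Fam A η atTop P.O P.S (P.ψ q) :=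
  ⟨hη, P.opn, P.thin.circ, fun k => Eventually.of_forall (P.ψ_psh q k), P.law₁ q⟩

theorem fam₂ (q : ℕ) : Fam (A.prod A) (e2 η) atTop (fun k : P.κ × P.κ => P.O k.1 ×ˢ P.O k.2)
    {p | p.1 ∈ P.S ∨ p.2 ∈ P.S} fun k => P.s q k.1 k.2 := by
  refine ⟨cont_e2 hη, fun k => (P.opn _).prod (P.opn _), circ_prod P.thin,
    fun k => Eventually.of_forall (P.s_psh q k.1 k.2), fun k k' x hx ε hε => ?_⟩
  have hS := not_or.1 hx.2
  have h1 := P.law₂ q k.1 k'.1 k.2 x.1 ⟨⟨hx.1.1.1, hx.1.2.1⟩, hS.1⟩ x.2 ⟨hx.1.1.2, hS.2⟩ _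
    (half_pos hε)
  have h2 := P.law₂ q k.2 k'.2 k'.1 x.2 ⟨⟨hx.1.1.2, hx.1.2.2⟩, hS.2⟩ x.1 ⟨hx.1.2.1, hS.1⟩ _
    (half_pos hε)
  filter_upwards [h1, (tendsto_id.prodMap (continuous_swap.tendsto x)).eventually h2,
    tendsto_snd.eventually (((P.opn _).prod (P.opn _)).mem_nhds hx.1.1),
    tendsto_snd.eventually (((P.opn _).prod (P.opn _)).mem_nhds hx.1.2)] with p h3 h4 h5 h6 h7
  have h8 := not_or.1 h7
  have h9 : P.s q k.2 k'.1 p.1 (p.2.2, p.2.1) ≤ P.s q k'.2 k'.1 p.1 (p.2.2, p.2.1) + (ε / 2 : ℝ) :=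
    h4 h8.2 h8.1
  rw [← P.s_symm q _ _ _ _ h6.1 _ h5.2, ← P.s_symm q _ _ _ _ h6.1 _ h6.2] at h9
  refine (h3 h8.1 h8.2).trans ((add_le_add h9 le_rfl).trans (le_of_eq ?_))
  rw [add_assoc, ← EReal.coe_add, add_halves]

theorem le' (q : ℕ) (k k' : P.κ) (l : ℕ) {x y : M} (hx : x ∈ P.O k) (hy : y ∈ P.O k') :
    P.s q k k' l (x, y) ≤ P.ψ q k l x + P.ψ q k' l y :=
  (P.s_psh q k k' l).le_of_circ (cont_e2 hη) ((P.opn _).prod (P.opn _)) (circ_prod P.thin)
    (x := (x, y)) ⟨hx, hy⟩ (g := fun p => P.ψ q k l p.1 + P.ψ q k' l p.2)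
    ((wp_prod (P.ψ_psh q k l) (P.ψ_psh q k' l)).usc (cont_e2 hη) ((P.opn _).prod (P.opn _))
      ⟨hx, hy⟩) (mem_of_superset (((P.opn _).prod (P.opn _)).mem_nhds ⟨hx, hy⟩) fun _ hp hS =>
        P.le q k k' l _ ⟨hp.1, (not_or.1 hS).1⟩ _ ⟨hp.2, (not_or.1 hS).2⟩)

theorem gl0₂_le (q : ℕ) {n : ℕ → ℝ}
    (hn : ∀ x, gl0 atTop P.O (fun k i x => P.ψ q k i x + (n i : ℝ)) x ≤ 0) (p : M × M) :
    gl0 atTop (fun k : P.κ × P.κ => P.O k.1 ×ˢ P.O k.2)
      (fun k i p => P.s q k.1 k.2 i p + ((n i + n i : ℝ) : EReal)) p ≤ 0 := by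
  have hF := (P.fam₁ hη q).add_const n
  refine iSup₂_le fun k hk => le_coe_of_forall (b := 0) fun ε hε => rlim_le ?_
  have h1 := ev_lt_of_rlim_lt (lt_coe_add (b := 0) ((hF.gl0_eq hk.1).ge.trans (hn _)) (half_pos hε))
  have h2 := ev_lt_of_rlim_lt (lt_coe_add (b := 0) ((hF.gl0_eq hk.2).ge.trans (hn _)) (half_pos hε))
  filter_upwards [(tendsto_id.prodMap (continuous_fst.tendsto p)).eventually h1,
    (tendsto_id.prodMap (continuous_snd.tendsto p)).eventually h2,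
    tendsto_snd.eventually (((P.opn _).prod (P.opn _)).mem_nhds hk)] with r h3 h4 h5
  refine (add_le_add (P.le' hη q _ _ _ h5.1 h5.2) le_rfl).trans ?_
  rw [EReal.coe_add, add_add_add_comm]
  exact (add_le_coe h3.le h4.le).trans (EReal.coe_le_coe_iff.2 (by linarith))

/-- the family of slices at a good point -/
def slc (q : ℕ) (n : ℕ → ℝ) (k' : P.κ) (y : M) (k : P.κ) (i : ℕ) (x : M) : EReal :=
  P.s q k k' i (x, y) + ((n i - (P.ψ q k' i y).toReal : ℝ) : EReal)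

theorem fam_slc (q : ℕ) (n : ℕ → ℝ) {k' : P.κ} {y : M} (hy : y ∈ P.O k' \ P.S) :
    Fam A η atTop P.O P.S (P.slc q n k' y) := by
  refine Fam.add_const (u := fun k i x => P.s q k k' i (x, y)) ⟨hη, P.opn, P.thin.circ,
    fun k => Eventually.of_forall fun i => (P.s_psh q k k' i).slice hy.1,
    fun k k₁ x hx ε hε => ?_⟩ _
  have t : Tendsto (fun x : M => (x, y)) (𝓝 x) (𝓝 (x, y)) :=
    (continuous_id.prodMk continuous_const).tendsto x
  filter_upwards [(tendsto_id.prodMap t).eventually (P.law₂ q k k₁ k' x hx y hy ε hε)] with p h1 h2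
  exact h1 h2 hy.2

theorem slc_le (q : ℕ) (n : ℕ → ℝ) {k' : P.κ} {y : M} (hy : y ∈ P.O k' \ P.S) (k : P.κ) (i : ℕ)
    {x : M} (hx : x ∈ P.O k) : P.slc q n k' y k i x ≤ P.ψ q k i x + (n i : ℝ) := by
  refine (add_le_add (P.le' hη q k k' i hx hy.1) le_rfl).trans (le_of_eq ?_)
  have h1 := P.fin q k' i y hy
  have h2 := (P.ψ_psh q k' i).lt_top hy.1
  lift P.ψ q k' i y to ℝ using ⟨h2.ne, h1⟩ with a
  rw [add_assoc, ← EReal.coe_add, EReal.toReal_coe]
  congr 2; ring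

theorem gl0_slc_le (q : ℕ) {n : ℕ → ℝ}
    (hn : ∀ x, gl0 atTop P.O (fun k i x => P.ψ q k i x + (n i : ℝ)) x ≤ 0) {k' : P.κ} {y : M}
    (hy : y ∈ P.O k' \ P.S) {l : ℕ → ℕ} (hl : Tendsto l atTop atTop) (x : M) :
    gl0 atTop P.O (fun k i => P.slc q n k' y k (l i)) x ≤ 0 := by
  refine iSup₂_le fun k hk => le_trans ?_ ((((P.fam₁ hη q).add_const n).gl0_eq hk).ge.trans (hn x))
  refine le_trans (rlim_mono (u' := fun i x => P.ψ q k (l i) x + (n (l i) : ℝ))
    (tendsto_snd.eventually ((P.opn k).mem_nhds hk) |>.mono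
    fun p hp => P.slc_le hη q n hy k _ hp)) ?_
  exact rlim_comp_le (u := fun i x => P.ψ q k i x + (n i : ℝ)) (j := l) (F := fun _ x => x)
    (hl.prodMap tendsto_id)

theorem slc_pole (q : ℕ) {n : ℕ → ℝ}
    (hn : ∀ x, gl0 atTop P.O (fun k i x => P.ψ q k i x + (n i : ℝ)) x ≤ 0) {k' : P.κ} {y : M}
    (hy : y ∈ P.O k' \ P.S) {l : ℕ → ℕ} (hl : Tendsto l atTop atTop) {j : A.ι}
    (hj : y ∈ (A.e j).source) : ∃ C' : ℝ, ∀ᶠ z in 𝓝[≠] (A.e j y),
      gl atTop P.O (fun k i => P.slc q n k' y k (l i)) ((A.e j).symm z) + (η j z : ℝ) ≤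
        ((C' + P.c q * Real.log ‖z - A.e j y‖ : ℝ) : EReal) := by
  have : ProperSpace E := FiniteDimensional.proper ℂ E
  set w := A.e j y with hw
  obtain ⟨R, C, hR, hB⟩ := exists_ball_bd (hη j) ((A.e j).map_source hj)
    ((isOpen_ch A j (P.opn k')).mem_nhds ((mem_ch hj).2 hy.1))
  have hF := (P.fam₁ hη q).add_const n
  have h1 : ∀ᶠ i in atTop, ∀ z ∈ closedBall w R,
      P.ψ q k' i ((A.e j).symm z) + (n i : ℝ) + (η j z : ℝ) < ((C + 1 : ℝ) : EReal) := by
    refine hartogs' (isCompact_closedBall w R) (g := fun _ => C + 1)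
      (u := fun i z => P.ψ q k' i ((A.e j).symm z) + (n i : ℝ) + (η j z : ℝ))
      (fun _ _ => continuousAt_const) fun z hz => ?_
    rw [rlim_chart (fun i x => P.ψ q k' i x + (n i : ℝ)) (hη j) (hB z hz).1.1,
      ← hF.gl0_eq (hB z hz).1.2]
    refine lt_coe_add ?_ one_pos
    simpa using add_le_coe (x := 0) (hn _) (EReal.coe_le_coe_iff.2 (abs_le.1 (hB z hz).2).2)
  have h2 : ∀ᶠ i in atTop, ∀ z, z ≠ w → ‖z - w‖ ≤ R →
      P.slc q n k' y k' i ((A.e j).symm z) + (η j z : ℝ) ≤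
        ((C + 1 + P.c q * (Real.log ‖z - w‖ - Real.log R) : ℝ) : EReal) := by
    filter_upwards [h1] with i hi z hz hzR
    have hp : WP A η (P.O k') (P.slc q n k' y k' i) :=
      ((P.s_psh q k' k' i).slice hy.1).add_const _
    refine (hp j).schwarz w (fun z hz => (hB z hz.1).1) (fun c' hc' m => ?_) (fun z hz => ?_) hz hzR
    · refine ((P.R q k' i j y hy hj c' hc' (m - C - (n i - (P.ψ q k' i y).toReal))).and_eventually
        (nhdsWithin_le_nhds (ge_mem_nhds hR))).mono fun r hr z hz => ?_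
      have h3 := (abs_le.1 (hB z (by rw [mem_closedBall, dist_eq_norm, hz]; exact hr.2)).2).2
      refine (add_le_coe (add_le_coe (hr.1 z hz) le_rfl) (EReal.coe_le_coe_iff.2 h3)).trans
        (le_of_eq ?_)
      congr 1; ring
    · have h3 : z ∈ closedBall w R := by rw [mem_closedBall, dist_eq_norm, hz]
      exact (add_le_add (P.slc_le hη q n hy k' i (hB z h3).1.2) le_rfl).trans (hi z h3).le
  refine ⟨C + 1 - P.c q * Real.log R, ?_⟩
  filter_upwards [self_mem_nhdsWithin, nhdsWithin_le_nhds (ball_mem_nhds w hR)] with z hz hzR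
  have hz' := (hB z (ball_subset_closedBall hzR)).1
  rw [((P.fam_slc hη q n hy).comp hl).gl_eq hz'.2,
    ← rlim_chart (fun i => P.slc q n k' y k' (l i)) (hη j) hz'.1]
  have hc : ContinuousAt (fun z => C + 1 - P.c q * Real.log R + P.c q * Real.log ‖z - w‖) z :=
    continuousAt_const.add (continuousAt_const.mul (ContinuousAt.log (by fun_prop)
      (norm_ne_zero_iff.2 (sub_ne_zero.2 hz))))
  refine rlim_le_of_usc (g := fun z => ((C + 1 - P.c q * Real.log R +
      P.c q * Real.log ‖z - w‖ : ℝ) : EReal))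
    ((continuous_coe_real_ereal.continuousAt.comp hc).upperSemicontinuousAt)
    (inter_mem (isOpen_ne.mem_nhds hz) (isOpen_ball.mem_nhds hzR))
    ((hl.eventually h2).mono fun i hi z' hz' => (hi z' hz'.1 ?_).trans (le_of_eq ?_))
  · rw [← dist_eq_norm]; exact (mem_ball.1 hz'.2).le
  · congr 1; ring

end Pre

end Crest.Agent.X261.Lim
end
end

-- ▼ part X261/EnP/Pre
section

/-!
# Row 261, EN assembly (helper19), file `Pre`

`Dat.pre : Lim.Pre` and the negativity of `Ξ` at a finite level.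
-/

set_option autoImplicit false
set_option linter.dupNamespace false
set_option linter.unusedSectionVars false

open Set Filter Topology Finset Metric

noncomputable section

namespace Crest.Agent.X261.EnP

open Crest.Agent.X261.Psh Crest.Agent.X261.Ans Crest.Agent.X261.Lim Crest.Agent.X261.Pole
  Crest.Agent.X261.Two

/-- the refining sequence -/
def mq (p : ℕ) : ℕ → ℕ
  | 0 => 2 * (12 * (p + 1) * 2 ^ (p + 1))
  | q + 1 => mq p q * (30 * mq p q)

theorem mq_pos (p q : ℕ) : 0 < mq p q := by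
  induction q with
  | zero => unfold mq; positivity
  | succ q ih => unfold mq; positivity

/-- the normalisation -/
def al (p q : ℕ) : ℝ := ∑ j ∈ range (mq p q), (1 - (j : ℝ) / mq p q) ^ (p + 1)

theorem al_pos (p q : ℕ) : 0 < al p q :=
  sum_pos (fun j hj => pow_pos (by simpa [lev] using lev_pos one_pos (mem_range.1 hj)) _)
    ⟨0, mem_range.2 (mq_pos p q)⟩

/-- the level -/
def lv (l : ℕ) : ℝ := l + 1

theorem lv_pos (l : ℕ) : 0 < lv l := Nat.cast_add_one_pos l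

/-- the inverse of the total slope -/
def iK (k : ℝ) (p q l : ℕ) : ℝ := (al p q * kc k p (lv l))⁻¹

/-- the Legendre parameter -/
def tq (k : ℝ) (p q l : ℕ) : ℝ := 3 * mc k p (lv l) / mq p q

variable {k0 : ℝ} {p : ℕ}

theorem kc_pos (hk : 0 < k0) (l : ℕ) : 0 < kc k0 p (lv l) := mul_pos hk (pow_pos (lv_pos l) _)

theorem mc_pos (hk : 0 < k0) (l : ℕ) : 0 < mc k0 p (lv l) := by
  have := lv_pos l
  unfold mc; positivity

theorem iK_pos (hk : 0 < k0) (q l : ℕ) : 0 < iK k0 p q l :=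
  inv_pos.2 (mul_pos (al_pos p q) (kc_pos hk l))

theorem iK_sum (hk : 0 < k0) (q l : ℕ) :
    iK k0 p q l * ∑ j ∈ range (mq p q), kc k0 p (lev (lv l) (mq p q) j) = 1 := by
  have : ∑ j ∈ range (mq p q), kc k0 p (lev (lv l) (mq p q) j) = al p q * kc k0 p (lv l) := by
    rw [al, sum_mul]
    exact sum_congr rfl fun j _ => by simp only [kc, lev, mul_pow]; ring
  rw [this, iK, inv_mul_cancel₀ (mul_pos (al_pos p q) (kc_pos hk l)).ne']

theorem tendsto_lev {m j : ℕ} (hj : j < m) : Tendsto (fun l => lev (lv l) m j) atTop atTop :=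
  (tendsto_atTop_add_const_right _ 1 tendsto_natCast_atTop_atTop).atTop_mul_const
    (by simpa [lev] using lev_pos one_pos hj)

theorem sub_two (ξ : EReal) (a b : ℝ) : ξ + ((a + b : ℝ) : EReal) - a - b = ξ := by
  induction ξ with
  | bot => simp
  | top => rw [EReal.top_add_coe, EReal.top_sub_coe, EReal.top_sub_coe]
  | coe ξ => norm_cast; ring

variable {E : Type} [NormedAddCommGroup E] [NormedSpace ℂ E] [FiniteDimensional ℂ E] {M : Type}
  [TopologicalSpace M] {A : HA E M} {G : Type} [Group G] [MulAction G M] {η : A.ι → E → ℝ}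
  {L : LS M} {F : Type} [NormedAddCommGroup F] [NormedSpace ℂ F] [FiniteDimensional ℂ F]

namespace Dat

variable (D : Dat A G η L F k0 p)

/-- the pole family at a point -/
abbrev Y (k : D.κ) (x : M) : PF L := D.X k (D.t k x)

/-- the one-point weights -/
def ψ (q : ℕ) (k : D.κ) (l : ℕ) (x : M) : EReal :=
  (iK k0 p q l : EReal) * ∑ j ∈ range (mq p q), (D.Y k x).Dl k0 p (lev (lv l) (mq p q) j) 0 +
    ((-D.lam k x : ℝ) : EReal)

/-- their real values -/
def a (q : ℕ) (k : D.κ) (l : ℕ) (x : M) : ℝ :=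
  iK k0 p q l * Ph (D.Y k x) k0 p (lv l) (mq p q) - D.lam k x

/-- the two-point weights -/
def s (q : ℕ) (k k' : D.κ) (l : ℕ) (z : M × M) : EReal :=
  (iK k0 p q l : EReal) * D.U (D.Y k z.1) (D.Y k' z.2) (lv l) (mq p q) (tq k0 p q l) +
    (((-D.lam k z.1 : ℝ) : EReal) + ((-D.lam k' z.2 : ℝ) : EReal))

/-- the normalised two-point functional -/
def Ξ (q : ℕ) (k k' : D.κ) (l : ℕ) (x y : M) : EReal :=
  (iK k0 p q l : EReal) * Two.Xi (D.Y k x) (D.Y k' y) k0 p (lv l) (mq p q) (tq k0 p q l)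

variable {D} {q l : ℕ} {k k' : D.κ} {x y : M}

theorem ψ_eq (hx : x ∈ D.O k \ D.S) : D.ψ q k l x = D.a q k l x := by
  rw [ψ, sum_congr rfl fun j hj => ((D.asy k x hx).coe_dl (lev_pos (lv_pos l) (mem_range.1 hj))
    L.zero_mem).symm, ← coe_sum', ← EReal.coe_mul, ← EReal.coe_add]
  rfl

theorem s_eq (hk : 0 < k0) (hx : x ∈ D.O k \ D.S) (hy : y ∈ D.O k' \ D.S) :
    D.s q k k' l (x, y) = D.Ξ q k k' l x y + ((D.a q k l x + D.a q k' l y : ℝ) : EReal) := by
  rw [s, D.U_eq (D.Y k x) (D.Y k' y) (D.asy k x hx) (D.asy k' y hy) _ (lv_pos l) _ (mq_pos p q),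
    coe_mul_add (iK_pos hk q l).le, add_assoc, ← EReal.coe_mul, ← EReal.coe_add, ← EReal.coe_add]
  congr 2
  unfold a
  ring

theorem xi_eq (hk : 0 < k0) (hx : x ∈ D.O k \ D.S) (hy : y ∈ D.O k' \ D.S) :
    xi (D.s q k k' l) (D.ψ q k l) (D.ψ q k' l) x y = D.Ξ q k k' l x y := by
  rw [xi, s_eq hk hx hy, ψ_eq hx, ψ_eq hy, sub_two]

theorem ψ_psh (hk : 0 < k0) : WP A η (D.O k) (D.ψ q k l) := fun j =>
  ((((IsPsh.sum (range (mq p q)) fun _ hi => Hol.comp_hol (D.B_opn k)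
    (D.D_psh k _ (lev_pos (lv_pos l) (mem_range.1 hi))) (D.t_hol k j)
      fun _ hz => D.t_mem k _ hz.2).smul (iK_pos hk q l).le).add (D.lam_psh k j))).congr
        fun _ _ => (add_assoc _ _ _).symm

theorem s_psh (hk : 0 < k0) : WP (A.prod A) (e2 η) (D.O k ×ˢ D.O k') (D.s q k k' l) := fun j =>
  (((Hol.comp_hol ((D.B_opn k).prod (D.B_opn k'))
    (D.U_psh k k' _ (lv_pos l) _ (mq_pos p q) (tq k0 p q l))
    (φ := fun z : E × E => (D.t k ((A.e j.1).symm z.1), D.t k' ((A.e j.2).symm z.2)))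
    (((D.t_hol k j.1).comp differentiableOn_fst fun _ hz => ⟨hz.1.1, hz.2.1⟩).prodMk
      ((D.t_hol k' j.2).comp differentiableOn_snd fun _ hz => ⟨hz.1.2, hz.2.2⟩))
    fun _ hz => ⟨D.t_mem k _ hz.2.1, D.t_mem k' _ hz.2.2⟩).smul (iK_pos hk q l).le).add
      (wp_prod (D.lam_psh k) (D.lam_psh k') j)).congr fun _ _ => (add_assoc _ _ _).symm

theorem law_a (hk : 0 < k0) (q : ℕ) (hx : x ∈ (D.O k ∩ D.O k') \ D.S) {ε : ℝ} (hε : 0 < ε) :
    ∀ᶠ w : ℕ × M in atTop ×ˢ 𝓝 x, w.2 ∈ D.O k ∩ D.O k' ∧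
      (w.2 ∉ D.S → D.a q k w.1 w.2 ≤ D.a q k' w.1 w.2 + ε) := by
  have h1 : ∀ᶠ w : ℕ × M in atTop ×ˢ 𝓝 x, ∀ j ∈ range (mq p q), _ :=
    (eventually_all_finset _).2 fun j hj =>
      ((tendsto_lev (mem_range.1 hj)).prodMap tendsto_id).eventually (D.law k k' x hx ε hε)
  filter_upwards [h1, tendsto_snd.eventually (((D.opn k).inter (D.opn k')).mem_nhds hx.1)]
    with w h2 h3
  refine ⟨h3, fun hw => ?_⟩
  have h4 := mul_le_mul_of_nonneg_left (sum_le_sum fun j hj => h2 j hj hw)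
    (iK_pos (p := p) hk q w.1).le
  have h5 := iK_sum (p := p) hk q w.1
  simp only [Prod.map, id, sum_add_distrib, sum_sub_distrib, ← sum_mul, ← mul_sum] at h4
  unfold a Ph
  generalize ∑ j ∈ range (mq p q), kc k0 p (lev (lv w.1) (mq p q) j) = K at h4 h5
  have h6 : ∀ r, iK k0 p q w.1 * (K * r) = r := fun r => by rw [← mul_assoc, h5, one_mul]
  simp only [mul_add, mul_sub, h6, mul_comm ε] at h4
  exact h4

theorem Ξ_chart {k₂ : D.κ} (hx : x ∈ (D.O k ∩ D.O k') \ D.S) :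
    D.Ξ q k k₂ l x y = D.Ξ q k' k₂ l x y := by
  have key : ∀ {k k' : D.κ}, x ∈ (D.O k ∩ D.O k') \ D.S → ∀ c, 0 < c → ∀ a ∈ L.Q,
      (D.Y k x).cst k0 p c a ≤ (D.Y k' x).cst k0 p c a := fun {k k'} hx c hc a ha => by
    obtain ⟨μ, τ, h⟩ := D.inc k k' x hx c hc
    exact cst_le_cst (D.asy k x ⟨hx.1.1, hx.2⟩) (D.asy k' x ⟨hx.1.2, hx.2⟩) hc ha h
  unfold Ξ
  rw [Xi_congr (fun j hj a ha => le_antisymm (key hx _ (lev_pos (lv_pos l) hj) a ha)
    (key ⟨⟨hx.1.2, hx.1.1⟩, hx.2⟩ _ (lev_pos (lv_pos l) hj) a ha)) fun _ _ _ _ => rfl]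

theorem Ξ_nonpos (hk : 0 < k0) (hx : x ∈ D.O k \ D.S) (hy : y ∈ D.O k' \ D.S) :
    D.Ξ q k k' l x y ≤ 0 :=
  mul_nonpos_of_nonneg_of_nonpos (EReal.coe_nonneg.2 (iK_pos hk q l).le)
    (Xi_nonpos (D.asy k x hx) (D.asy k' y hy) (lv_pos l) (mq_pos p q))

theorem Ξ_tri (hk : 0 < k0) {k₃ : D.κ} {z : M} (hx : x ∈ D.O k \ D.S) (hy : y ∈ D.O k' \ D.S)
    (hz : z ∈ D.O k₃ \ D.S) : D.Ξ q k k₃ l x z ≤ ((10 * mq p q * al p (q + 1) / al p q : ℝ) : EReal) *
      max (D.Ξ (q + 1) k k' l x y) (D.Ξ (q + 1) k' k₃ l y z) := by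
  have hm := mq_pos p q
  have hm1 := mq_pos p (q + 1)
  have h1 := Xi_tri (D.asy k x hx) (D.asy k' y hy) (D.asy k₃ z hz) (lv_pos l) hm
    (r := 30 * mq p q) (by positivity) (D.star k k' x hx y hy _ (lv_pos l) _ hm1)
    (D.star k' k₃ y hy z hz _ (lv_pos l) _ hm1) (t' := tq k0 p (q + 1) l)
    (div_pos (mul_pos three_pos (mc_pos hk l)) (Nat.cast_pos.2 hm1))
    (lam := ((30 * mq p q : ℕ) : ℝ) / 3) (by positivity) (par_ok (mc_pos hk l).le hm le_rfl)
  have h2 : Monotone fun ξ : EReal => (iK k0 p (q + 1) l : EReal) * ξ := fun _ _ h =>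
    mul_le_mul_of_nonneg_left h (EReal.coe_nonneg.2 (iK_pos hk _ l).le)
  unfold Ξ
  rw [← h2.map_max, ← mul_assoc, ← EReal.coe_mul]
  refine (mul_le_mul_of_nonneg_left h1 (EReal.coe_nonneg.2 (iK_pos hk q l).le)).trans (le_of_eq ?_)
  rw [← mul_assoc, ← EReal.coe_mul]
  congr 2
  have := al_pos p q
  have := al_pos p (q + 1)
  have := kc_pos (p := p) hk l
  unfold iK
  push_cast
  field_simp
  ring

/-- the Lelong number -/
def cq (p q : ℕ) : ℝ := 4 * (p + 1) / (mq p q * al p q)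

theorem cq_pos (p q : ℕ) : 0 < cq p q := by
  have := al_pos p q
  have := mq_pos p q
  unfold cq; positivity

theorem ray_s (hk : 0 < k0) (q l : ℕ) (hy : y ∈ D.O k \ D.S) : ∃ C : ℝ, ∀ᶠ σ in atTop,
    ∀ x ∈ D.O k \ D.S, ‖D.t k x - D.t k y‖ ≤ Real.exp (-σ / 2) →
      D.s q k k l (x, y) ≤ ((C - cq p q / 2 * σ - D.lam k x : ℝ) : EReal) := by
  obtain ⟨C, hC⟩ := D.ray k y hy _ (lv_pos l) _ (mq_pos p q)
  refine ⟨iK k0 p q l * C + D.a q k l y, ?_⟩
  filter_upwards [hC, eventually_ge_atTop 0] with σ h1 h0 x hx h2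
  rw [s_eq hk hx hy]
  refine (add_le_coe (coe_mul_le (iK_pos hk q l).le (Xi_le (mul_nonneg (lv_pos l).le h0)))
    le_rfl).trans (EReal.coe_le_coe_iff.2 ?_)
  have h3 := mul_le_mul_of_nonneg_left (h1 x hx h2) (iK_pos (p := p) hk q l).le
  have h4 : iK k0 p q l * (mc k0 p (lv l) / mq p q * (lv l * σ)) = cq p q / 4 * σ := by
    have := al_pos p q
    have := mq_pos p q
    have := kc_pos (p := p) hk l
    rw [div_mul_eq_mul_div, ← mul_assoc (mc _ _ _), mc_mul]
    unfold iK cq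
    field_simp
  have h5 : iK k0 p q l * (tq k0 p q l * (lv l * σ)) = 3 * (cq p q / 4 * σ) := by
    rw [← h4, tq]; ring
  unfold a
  simp only [mul_add, mul_sub] at h3 ⊢
  linarith

theorem pole (hk : 0 < k0) (hη : ∀ j, ContinuousOn (η j) (A.e j).target) (q l : ℕ) (j : A.ι)
    (hy : y ∈ D.O k \ D.S) (hj : y ∈ (A.e j).source) {c' : ℝ} (hc : c' < cq p q) (m : ℝ) :
    ∀ᶠ r : ℝ in 𝓝[>] (0 : ℝ), ∀ z, ‖z - A.e j y‖ = r →
      D.s q k k l ((A.e j).symm z, y) ≤ ((m + c' * Real.log r : ℝ) : EReal) := by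
  obtain ⟨C, hC⟩ := ray_s hk q l hy
  have hO := (isOpen_ch A j (D.opn k)).mem_nhds ((mem_ch hj).2 hy.1)
  obtain ⟨Λ, hΛ, h1⟩ := ((D.t_hol k j).differentiableAt hO).isBigO_sub.exists_pos
  have h2 := (HA.tendsto_symm hj).eventually ((D.lam_psh k).usc hη (D.opn k) hy.1 _
    (lt_coe_add le_rfl one_pos))
  obtain ⟨δ, hδ, h3⟩ := Metric.eventually_nhds_iff_ball.1 (h1.bound.and (h2.and hO))
  have t1 : Tendsto (fun r : ℝ => Real.log r) (𝓝[>] 0) atBot := Real.tendsto_log_nhdsGT_zero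
  have t2 : Tendsto (fun r : ℝ => -2 * (Real.log (2 * Λ) + Real.log r)) (𝓝[>] 0) atTop :=
    (tendsto_atBot_add_const_left _ _ t1).const_mul_atBot_of_neg (by norm_num)
  filter_upwards [t2.eventually hC, Ioo_mem_nhdsGT (half_pos hδ),
    (t1.const_mul_atBot (sub_pos.2 hc)).eventually (eventually_le_atBot
      (m - C - cq p q * Real.log (2 * Λ) - (-D.lam k y + 1)))] with r e1 e2 e3 z hz
  have hzb : z ∈ ball (A.e j y) (2 * r) := by rw [mem_ball_iff_norm, hz]; linarith [e2.1]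
  have hb : ball (A.e j y) (2 * r) ⊆ ball (A.e j y) δ := ball_subset_ball (by linarith [e2.2])
  have hz' : z ∈ ch A j (D.O k) := (h3 z (hb hzb)).2.2
  refine ((s_psh hk).slice hy.1).le_of_circ hη (D.opn k) D.thin.circ hz'.2
    (g := fun _ => ((m + c' * Real.log r : ℝ) : EReal)) upperSemicontinuousAt_const ?_
  rw [← map_symm hz'.1, eventually_map]
  filter_upwards [isOpen_ball.mem_nhds hzb] with w hw hS
  obtain ⟨g1, g2, g3⟩ := h3 w (hb hw)
  rw [(A.e j).left_inv hj] at g1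
  refine (e1 _ ⟨g3.2, hS⟩ (g1.trans ?_)).trans (EReal.coe_le_coe_iff.2 ?_)
  · rw [show -(-2 * (Real.log (2 * Λ) + Real.log r)) / 2 = Real.log (2 * Λ) + Real.log r by ring,
      Real.exp_add, Real.exp_log (by positivity), Real.exp_log e2.1]
    nlinarith [mem_ball_iff_norm.1 hw]
  · have := EReal.coe_lt_coe_iff.1 g2
    nlinarith

variable (D) in
/-- **the finite level two-point data** -/
def pre (hk : 0 < k0) (hη : ∀ j, ContinuousOn (η j) (A.e j).target) : Pre A G η where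
  κ := D.κ
  O := D.O
  opn := D.opn
  dsc := D.dsc
  plr := D.plr
  S := D.S
  thin := D.thin
  σ := D.σ
  O_inv := D.O_inv
  S_inv := D.S_inv
  ψ := D.ψ
  s := D.s
  lam q := 10 * mq p q * al p (q + 1) / al p q
  c := cq p
  lam_pos q := by
    have := al_pos p q
    have := al_pos p (q + 1)
    have := mq_pos p q
    positivity
  c_pos := cq_pos p
  ψ_psh _ _ _ := ψ_psh hk
  s_psh _ _ _ _ := s_psh hk
  ψ_inv q g k l x hx := by
    simp only [ψ, Y, D.t_inv g k x hx, D.lam_inv g k x hx, D.D_inv g k _ (D.t_mem k x hx)]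
  s_inv q g k k' l x hx y hy := by
    simp only [s, Y, D.t_inv g k x hx, D.lam_inv g k x hx, D.t_inv g k' y hy, D.lam_inv g k' y hy,
      D.U_inv g k k' _ (D.t_mem k x hx) _ (D.t_mem k' y hy)]
  s_symm q k k' l x _ y _ := by simp only [s]; rw [D.U_symm, add_comm ((-D.lam k x : ℝ) : EReal)]
  fin q k l x hx := by rw [ψ_eq hx]; exact EReal.coe_ne_bot _
  law₁ q k k' x hx ε hε := (law_a hk q hx hε).mono fun w hw hS => by
    rw [ψ_eq ⟨hw.1.1, hS⟩, ψ_eq ⟨hw.1.2, hS⟩, ← EReal.coe_add, EReal.coe_le_coe_iff]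
    exact hw.2 hS
  law₂ q k₁ k₁' k₂ x hx y hy ε hε := by
    filter_upwards [(tendsto_id.prodMap (continuous_fst.tendsto (x, y))).eventually
      (law_a hk q hx hε), tendsto_snd.eventually ((continuous_snd.tendsto (x, y)).eventually
        ((D.opn k₂).mem_nhds hy.1))] with w h1 h2 h3 h4
    simp only [Prod.map, id] at h1
    have h5 := h1.2 h3
    rw [← w.2.eta, s_eq hk ⟨h1.1.1, h3⟩ ⟨h2, h4⟩, s_eq hk ⟨h1.1.2, h3⟩ ⟨h2, h4⟩,
      Ξ_chart ⟨h1.1, h3⟩, add_assoc, ← EReal.coe_add]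
    exact add_le_add le_rfl (EReal.coe_le_coe_iff.2 (by linarith))
  le q k k' l x hx y hy := by
    rw [s_eq hk hx hy, ψ_eq hx, ψ_eq hy, ← EReal.coe_add]
    exact (add_le_add (Ξ_nonpos hk hx hy) le_rfl).trans (zero_add _).le
  U q k₁ k₂ k₃ x hx y hy z hz ε hε := Eventually.of_forall fun l => by
    rw [xi_eq hk hx hz, xi_eq hk hx hy, xi_eq hk hy hz]
    exact (Ξ_tri hk hx hy hz).trans (le_add_of_nonneg_right (EReal.coe_nonneg.2 hε.le))
  R q k l j y hy hj c' hc m := (pole hk hη q l j hy hj hc m).frequently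

/-- negativity of the limit functional is seen at a finite level -/
theorem exists_level [MeasurableSpace E] {μ : MeasureTheory.Measure E} (hk : 0 < k0)
    (hη : ∀ j, ContinuousOn (η j) (A.e j).target) (T : (D.pre hk hη).Out μ) (Φ : Finset G)
    (hx : x ∈ T.T.M0) (h : ∀ g ∈ Φ, T.T.Xi 0 x (g • x) < 0) : ∃ k, x ∈ D.O k \ D.S ∧ ∃ l : ℕ,
      ∀ g ∈ Φ, Two.Xi (D.Y k x) (D.Y (D.σ g k) (g • x)) k0 p (lv l) (mq p 0) (tq k0 p 0 l) < 0 := by
  obtain ⟨h1, k, h2⟩ := T.good x hx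
  have neg : ∀ {c : ℝ} {ξ : EReal}, 0 < c → (c : EReal) * ξ < 0 → ξ < 0 := fun hc h =>
    lt_of_not_ge fun h' => h.not_ge (mul_nonneg (EReal.coe_nonneg.2 hc.le) h')
  have h3 : ∀ g ∈ Φ, ∀ᶠ j in atTop, Two.Xi (D.Y k x) (D.Y (D.σ g k) (g • x)) k0 p (lv (T.l j))
      (mq p 0) (tq k0 p 0 (T.l j)) < 0 := fun g hg => by
    have h4 : g • x ∈ D.O (D.σ g k) \ D.S :=
      ⟨(D.O_inv g k x).2 h2, (T.good _ (T.T.M0_inv g x hx)).1⟩
    have h5 := h g hg
    rw [T.Xi 0 k (D.σ g k) x ⟨h2, h1⟩ _ h4] at h5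
    filter_upwards [eventually_lt_of_limsup_lt (neg (T.w_pos 0) h5)] with j hj
    exact neg (iK_pos hk 0 _) ((xi_eq hk ⟨h2, h1⟩ h4).symm.trans_lt hj)
  obtain ⟨j, hj⟩ := ((eventually_all_finset Φ).2 h3).exists
  exact ⟨k, ⟨h2, h1⟩, _, hj⟩

end Dat

end Crest.Agent.X261.EnP
end
private theorem rz_16c3ff3828 : type_of% @_root_.Crest.Agent.X261.EnP.mq.eq_def := @_root_.Crest.Agent.X261.EnP.mq.eq_def -- L25
end

-- ▼ part X261/Lim/L
section

/-!
# Row 261, package LIM (helper58), file `L`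

`L¹_loc` convergence of locally bounded psh functions to their relaxed limit along an ultrafilter.
-/

set_option autoImplicit false
set_option linter.dupNamespace false
set_option linter.unusedSectionVars false

open Set Filter Topology Metric MeasureTheory
open scoped ENNReal

noncomputable section

namespace Crest.Agent.X261.Lim

open Crest.Agent.X261.Psh

variable {E : Type*} [NormedAddCommGroup E] [NormedSpace ℂ E] [FiniteDimensional ℂ E]
  [MeasurableSpace E] [BorelSpace E] (μ : Measure E) [μ.IsAddHaarMeasure]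

theorem fubini_ball {h : E → ℝ≥0∞} (hm : Measurable h) {K L : Set E} (hK : MeasurableSet K)
    (_hL : MeasurableSet L) {r : ℝ} (hKL : ∀ y ∈ K, ball y r ⊆ L) :
    μ (ball 0 r) * ∫⁻ y in K, h y ∂μ ≤ ∫⁻ w in L, ∫⁻ y in ball w r, h y ∂μ ∂μ := by
  have : ProperSpace E := FiniteDimensional.proper ℂ E
  have hS : MeasurableSet {p : E × E | dist p.1 p.2 < r} :=
    (isOpen_lt continuous_dist continuous_const).measurableSet
  have hF : Measurable fun p : E × E => {p : E × E | dist p.1 p.2 < r}.indicator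
      (fun p => h p.1) p := (hm.comp measurable_fst).indicator hS
  calc μ (ball 0 r) * ∫⁻ y in K, h y ∂μ
      = ∫⁻ y in K, ∫⁻ w in L, {p : E × E | dist p.1 p.2 < r}.indicator (fun p => h p.1) (y, w)
          ∂μ ∂μ := by
        rw [← lintegral_const_mul _ hm]
        refine setLIntegral_congr_fun hK fun y hy => ?_
        have e : (fun w => {p : E × E | dist p.1 p.2 < r}.indicator (fun p => h p.1) (y, w)) =
            (ball y r).indicator fun _ => h y := by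
          funext w
          simp only [indicator, mem_ofPred_eq, mem_ball, dist_comm]
        simp only [e]
        rw [lintegral_indicator measurableSet_ball, Measure.restrict_restrict measurableSet_ball,
          inter_eq_left.2 (hKL y hy), setLIntegral_const, Measure.addHaar_ball_center μ y, mul_comm]
    _ = ∫⁻ w in L, ∫⁻ y in K, {p : E × E | dist p.1 p.2 < r}.indicator (fun p => h p.1) (y, w)
          ∂μ ∂μ := lintegral_lintegral_swap hF.aemeasurable
    _ ≤ _ := by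
        refine lintegral_mono fun w => (setLIntegral_le_lintegral _ _).trans (le_of_eq ?_)
        rw [← lintegral_indicator measurableSet_ball]
        rfl

variable {ι : Type*} {D : Set E} {f : ι → E → ℝ} {g : E → ℝ}

/-- uniform upper bound for the ball means of `C - f i` -/
theorem ev_ball_le (U : Ultrafilter ι) (hD : IsOpen D)
    (hf : ∀ i, IsPsh D fun z => (f i z : EReal))
    (hg : ∀ z ∈ D, rlim U (fun i z => (f i z : EReal)) z = g z) {L L' : Set E} (hL : IsCompact L)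
    (hLD : L' ⊆ D) {C r r' : ℝ} (hr : 0 < r) (hrr : r' < r)
    (hLL : ∀ z ∈ L, ball z (2 * r) ⊆ L') (hC : ∀ᶠ i in U, ∀ z ∈ L', f i z ≤ C) {η : ℝ≥0∞}
    (hη : η ≠ 0) (hr' : 0 < r') : ∀ᶠ i in U, ∀ w ∈ L,
      ∫⁻ y in ball w r', ENNReal.ofReal (C - f i y) ∂μ ≤
        μ (ball 0 r) * ENNReal.ofReal (C - g w) + η := by
  have : ProperSpace E := FiniteDimensional.proper ℂ E
  have hm0 : μ (ball (0 : E) r) ≠ 0 := (measure_ball_pos μ _ hr).ne'
  have hmt : μ (ball (0 : E) r) ≠ ⊤ := measure_ball_lt_top.ne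
  set ρ := (r - r') / 4 with hρ
  have hρ0 : 0 < ρ := by rw [hρ]; linarith
  have key : ∀ᶠ p in (U : Filter ι) ×ˢ 𝓝ˢ L,
      ∫⁻ y in ball p.2 r', ENNReal.ofReal (C - f p.1 y) ∂μ ≤
        μ (ball 0 r) * ENNReal.ofReal (C - g p.2) + η := by
    refine hL.mem_prod_nhdsSet_of_forall fun z hz => ?_
    set I : ι → ℝ≥0∞ := fun i => ∫⁻ y in ball z (r' + ρ), ENNReal.ofReal (C - f i y) ∂μ with hI
    obtain ⟨ν, -, hν⟩ := isCompact_univ.ultrafilter_le_nhds (U.map I) (by simp)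
    have hν' : Tendsto I U (𝓝 ν) := hν
    have h1 : ∀ w ∈ ball z ρ, ν ≤ μ (ball 0 r) * ENNReal.ofReal (C - g w) := by
      intro w hw
      have hwD : w ∈ D := hLD (hLL z hz (ball_subset_ball (by linarith) hw))
      refine le_of_forall_lt_imp_le_of_dense fun t ht => ?_
      have htt : t ≠ ⊤ := ht.ne_top
      have h2 : (g w : EReal) ≤ ((C - (t / μ (ball 0 r)).toReal : ℝ) : EReal) := by
        rw [← hg w hwD]
        refine rlim_le_of (ball_mem_nhds w hρ0) ?_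
        filter_upwards [hν'.eventually (lt_mem_nhds ht), hC] with i h3 h4 y hy
        have hyz : dist y z < 2 * ρ := by
          have := dist_triangle y w z
          rw [mem_ball] at hy hw
          linarith
        have h5 : ball y r ⊆ L' := (ball_subset_ball' (by linarith)).trans (hLL z hz)
        have h6 := (hf i).lint_ball μ hD (h5.trans hLD) (C := C)
          fun x hx => EReal.coe_le_coe_iff.2 (h4 x (h5 hx))
        simp only [cst_eq_ofReal (EReal.coe_ne_bot _) (EReal.coe_ne_top _), EReal.toReal_coe] at h6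
        rw [Measure.addHaar_ball_center μ y] at h6
        have h7 : t ≤ μ (ball 0 r) * ENNReal.ofReal (C - f i y) :=
          h3.le.trans ((lintegral_mono_set (ball_subset_ball' (by
            rw [dist_comm]; linarith))).trans h6)
        have h8 := ENNReal.toReal_mono ENNReal.ofReal_ne_top (ENNReal.div_le_of_le_mul' h7)
        rw [ENNReal.toReal_ofReal (sub_nonneg.2 (h4 y (h5 (mem_ball_self hr))))] at h8
        exact EReal.coe_le_coe_iff.2 (by linarith)
      have h3 : t / μ (ball 0 r) ≤ ENNReal.ofReal (C - g w) := by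
        rw [← ENNReal.ofReal_toReal (ENNReal.div_ne_top htt hm0)]
        exact ENNReal.ofReal_le_ofReal (by linarith [EReal.coe_le_coe_iff.1 h2])
      rwa [ENNReal.div_le_iff_le_mul (Or.inl hm0) (Or.inl hmt), mul_comm] at h3
    have hνt : ν ≠ ⊤ := ((h1 z (mem_ball_self hρ0)).trans_lt
      (ENNReal.mul_lt_top hmt.lt_top ENNReal.ofReal_lt_top)).ne
    filter_upwards [tendsto_fst.eventually (hν'.eventually
      (gt_mem_nhds (ENNReal.lt_add_right hνt hη))), tendsto_snd.eventually (ball_mem_nhds z hρ0)]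
      with p h2 h3
    refine (lintegral_mono_set (ball_subset_ball' ?_)).trans
      (h2.le.trans (add_le_add (h1 _ h3) le_rfl))
    linarith [mem_ball.1 h3]
  obtain ⟨S, hS, V, hV, h'⟩ := eventually_prod_iff.1 key
  exact hS.mono fun i hi w hw => h' hi (subset_of_mem_nhdsSet hV hw)

theorem ev_pos_le {l : Filter ι} (hg : ∀ z ∈ D, rlim l (fun i z => (f i z : EReal)) z = g z)
    {K : Set E} (hK : IsCompact K) (hKD : K ⊆ D) (hgm : AEMeasurable g (μ.restrict K)) {c : ℝ}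
    (hc : ∀ z ∈ K, c ≤ g z) {η : ℝ≥0∞} (hη : 0 < η) :
    ∀ᶠ i in l, ∫⁻ z in K, ENNReal.ofReal (f i z - g z) ∂μ ≤ η := by
  obtain ⟨γ, h1, h2, h3, h4⟩ := exists_cont_seq hK (f := rlim l fun i z => (f i z : EReal))
    (usc_rlim.upperSemicontinuousOn K) fun z hz => by rw [hg z (hKD hz)]; exact EReal.coe_lt_top _
  obtain ⟨B, hB⟩ := hK.exists_bound_of_continuousOn (h1 0).continuousOn
  have h5 : Tendsto (fun k : ℕ => ∫⁻ z in K, ENNReal.ofReal (γ k z + 1 / (k + 1) - g z) ∂μ) atTop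
      (𝓝 (∫⁻ _ in K, 0 ∂μ)) := by
    refine tendsto_lintegral_of_dominated_convergence' (fun _ => ENNReal.ofReal (B + 1 - c))
      (fun k => ((((h1 k).measurable.add_const _).aemeasurable).sub hgm).ennreal_ofReal)
      (fun k => (ae_restrict_iff' hK.measurableSet).2 (Eventually.of_forall fun z hz =>
        ENNReal.ofReal_le_ofReal ?_)) ?_
      ((ae_restrict_iff' hK.measurableSet).2 (Eventually.of_forall fun z hz => ?_))
    · have e1 : γ k z ≤ γ 0 z := h2 z (Nat.zero_le k)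
      have e2 := (abs_le.1 (hB z hz)).2
      have e3 : (1 : ℝ) / (k + 1) ≤ 1 := div_le_one_of_le₀ (by linarith [k.cast_nonneg (α := ℝ)])
        (by positivity)
      linarith [hc z hz]
    · rw [setLIntegral_const]
      exact ENNReal.mul_ne_top ENNReal.ofReal_ne_top hK.measure_lt_top.ne
    · have t1 : Tendsto (fun k => γ k z) atTop (𝓝 (g z)) := tendsto_order.2
        ⟨fun a ha => Eventually.of_forall fun k => ha.trans_le (EReal.coe_le_coe_iff.1
          ((hg z (hKD hz)).ge.trans (h3 k z hz))),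
        fun a ha => h4 z hz a (by rw [hg z (hKD hz)]; exact EReal.coe_lt_coe_iff.2 ha)⟩
      have t2 := ENNReal.tendsto_ofReal
        ((t1.add tendsto_one_div_add_atTop_nhds_zero_nat).sub_const (g z))
      simpa using t2
  rw [lintegral_zero] at h5
  obtain ⟨k, hk⟩ := (h5.eventually (gt_mem_nhds hη)).exists
  filter_upwards [hartogs' hK (g := fun z => γ k z + 1 / (k + 1)) (l := l)
    (u := fun i z => (f i z : EReal)) (fun z _ => ((h1 k).add continuous_const).continuousAt)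
    fun z hz => lt_coe_add (h3 k z hz) (by positivity)] with i hi
  refine le_trans (setLIntegral_mono' hK.measurableSet fun z hz => ENNReal.ofReal_le_ofReal ?_) hk.le
  linarith [EReal.coe_lt_coe_iff.1 (hi z hz)]

theorem ev_neg_le (U : Ultrafilter ι) (hD : IsOpen D)
    (hf : ∀ i, IsPsh D fun z => (f i z : EReal))
    (hg : ∀ z ∈ D, rlim U (fun i z => (f i z : EReal)) z = g z) {K : Set E} (hK : IsCompact K)
    {δ : ℝ} (hδ : 0 < δ) (hKD : cthickening (3 * δ) K ⊆ D) {c C : ℝ} (hc : ∀ z ∈ D, c ≤ g z)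
    (hC : ∀ᶠ i in U, ∀ z ∈ cthickening (3 * δ) K, f i z ≤ C) {b : ℝ≥0∞}
    (hb : ∫⁻ z in K, ENNReal.ofReal (C - g z) ∂μ < b) :
    ∀ᶠ i in U, ∫⁻ z in K, ENNReal.ofReal (C - f i z) ∂μ ≤ b := by
  have : ProperSpace E := FiniteDimensional.proper ℂ E
  let _ : NormedSpace ℝ E := NormedSpace.complexToReal
  have : FiniteDimensional ℝ E := FiniteDimensional.of_locallyCompactSpace ℝ
  set I := ∫⁻ z in K, ENNReal.ofReal (C - g z) ∂μ with hI
  obtain ⟨b₁, h1, h2⟩ := exists_between hb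
  obtain ⟨b₂, h3, h4⟩ := exists_between h2
  have hKt := hK.measure_lt_top (μ := μ)
  -- the thickening
  have t1 : Tendsto (fun r => I + ENNReal.ofReal (C - c) * (μ (cthickening r K) - μ K)) (𝓝 0)
      (𝓝 (I + ENNReal.ofReal (C - c) * (μ K - μ K))) :=
    tendsto_const_nhds.add (ENNReal.Tendsto.const_mul (ENNReal.Tendsto.sub
      (tendsto_measure_cthickening_of_isCompact hK) tendsto_const_nhds (Or.inl hKt.ne))
      (Or.inr ENNReal.ofReal_ne_top))
  rw [tsub_self, mul_zero, add_zero] at t1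
  obtain ⟨r, ⟨h5, h6⟩, hr⟩ := ((((t1.eventually (gt_mem_nhds h1)).and
    (gt_mem_nhds hδ)).filter_mono nhdsWithin_le_nhds).and
      (self_mem_nhdsWithin (s := Ioi (0 : ℝ)))).exists
  have hr0 : 0 < r := hr
  have hsub : cthickening r K ⊆ cthickening (3 * δ) K := cthickening_mono (by linarith) K
  have h7 : ∫⁻ z in cthickening r K, ENNReal.ofReal (C - g z) ∂μ ≤ b₁ := by
    refine le_trans ?_ h5.le
    refine ((lintegral_mono_set (union_sdiff_cancel (self_subset_cthickening (δ := r) K)).ge).trans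
      (lintegral_union_le _ _ _)).trans (add_le_add le_rfl ?_)
    rw [← measure_sdiff (self_subset_cthickening K) hK.measurableSet.nullMeasurableSet hKt.ne,
      ← setLIntegral_const]
    exact setLIntegral_mono' (isClosed_cthickening.measurableSet.diff hK.measurableSet)
      fun z hz => ENNReal.ofReal_le_ofReal (by linarith [hc z (hKD (hsub hz.1))])
  -- the smaller radius
  have hm0 : μ (ball (0 : E) r) ≠ 0 := (measure_ball_pos μ _ hr0).ne'
  have hmt : μ (ball (0 : E) r) ≠ ⊤ := measure_ball_lt_top.ne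
  have t2 : Tendsto (fun s : ℝ => μ (ball (0 : E) s) * b₂) (𝓝 r) (𝓝 (μ (ball 0 r) * b₂)) := by
    refine ENNReal.Tendsto.mul_const ?_ (Or.inl hm0)
    have e : ∀ s : ℝ, 0 < s → μ (ball (0 : E) s) =
        ENNReal.ofReal (s ^ Module.finrank ℝ E) * μ (ball 0 1) :=
      fun s hs => Measure.addHaar_ball_of_pos μ 0 hs
    rw [e r hr0]
    refine (ENNReal.Tendsto.mul_const (ENNReal.tendsto_ofReal ((continuous_pow _).tendsto r))
      (Or.inr measure_ball_lt_top.ne)).congr' ?_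
    filter_upwards [lt_mem_nhds hr0] with s hs using (e s hs).symm
  obtain ⟨s, ⟨h8, hs0⟩, hs⟩ := ((((t2.eventually (lt_mem_nhds
    (ENNReal.mul_lt_mul_right hm0 hmt h3))).and (lt_mem_nhds hr0)).filter_mono
      nhdsWithin_le_nhds).and (self_mem_nhdsWithin (s := Iio r))).exists
  have hn0 : μ (ball (0 : E) s) ≠ 0 := (measure_ball_pos μ _ hs0).ne'
  have hnt : μ (ball (0 : E) s) ≠ ⊤ := measure_ball_lt_top.ne
  have hLt : μ (cthickening r K) ≠ ⊤ := hK.cthickening.measure_lt_top.ne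
  obtain ⟨η, hη0, hη⟩ := ENNReal.exists_nnreal_pos_mul_lt hLt
    (b := μ (ball (0 : E) s) * (b - b₂)) (mul_ne_zero hn0 (tsub_pos_of_lt h4).ne')
  filter_upwards [ev_ball_le μ U hD hf hg hK.cthickening hKD hr0 hs (fun z hz =>
    (ball_subset_closedBall.trans (closedBall_subset_cthickening hz _)).trans
      ((cthickening_cthickening_subset (by linarith) hr0.le K).trans
        (cthickening_mono (by linarith) K))) hC (η := η) (by simpa using hη0.ne') hs0] with i hi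
  obtain ⟨f', hf'm, hf'⟩ := exists_meas hD (hf i).usc
  have hm : Measurable fun z => ENNReal.ofReal (C - (f' z).toReal) :=
    (measurable_const.sub hf'm.ereal_toReal).ennreal_ofReal
  have he : ∀ z ∈ D, ENNReal.ofReal (C - (f' z).toReal) = ENNReal.ofReal (C - f i z) :=
    fun z hz => by rw [← hf' hz, EReal.toReal_coe]
  have h9 := fubini_ball μ hm hK.measurableSet isClosed_cthickening.measurableSet (r := s)
    (L := cthickening r K) fun y hy => (ball_subset_ball hs.le).trans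
      (ball_subset_closedBall.trans (closedBall_subset_cthickening hy _))
  rw [setLIntegral_congr_fun hK.measurableSet
    fun z hz => he z (hKD (self_subset_cthickening K hz))] at h9
  refine (ENNReal.mul_le_mul_iff_right hn0 hnt).1 (h9.trans ?_)
  calc ∫⁻ w in cthickening r K, ∫⁻ y in ball w s, ENNReal.ofReal (C - (f' y).toReal) ∂μ ∂μ
      ≤ ∫⁻ w in cthickening r K, (μ (ball 0 r) * ENNReal.ofReal (C - g w) + η) ∂μ := by
        refine setLIntegral_mono' isClosed_cthickening.measurableSet fun w hw => ?_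
        rw [setLIntegral_congr_fun measurableSet_ball fun y hy => he y (hKD ?_)]
        · exact hi w hw
        · exact ((cthickening_cthickening_subset hs0.le hr0.le K).trans
            (cthickening_mono (by linarith [hs]) K))
            (closedBall_subset_cthickening hw _ (ball_subset_closedBall hy))
    _ ≤ μ (ball 0 r) * b₁ + η * μ (cthickening r K) := by
        rw [lintegral_add_right _ measurable_const, lintegral_const_mul' _ _ hmt,
          setLIntegral_const]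
        exact add_le_add (mul_le_mul_right h7 _) le_rfl
    _ ≤ μ (ball 0 s) * b₂ + μ (ball 0 s) * (b - b₂) := add_le_add h8.le hη.le
    _ = μ (ball 0 s) * b := by rw [← mul_add, add_tsub_cancel_of_le h4.le]

/-- **`L¹` convergence** of the truncations along an ultrafilter -/
theorem l1_tr (U : Ultrafilter ι) (hD : IsOpen D) {u : ι → E → EReal}
    (hu : ∀ i, IsPsh D (u i)) (hb : ∀ x ∈ D, rlim U u x < ⊤) {K : Set E} (hK : IsCompact K)
    (hKD : K ⊆ D) (c : ℝ) :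
    Tendsto (fun i => ∫⁻ z in K, ‖tr c (u i z) - tr c (rlim U u z)‖ₑ ∂μ) U (𝓝 0) := by
  have : ProperSpace E := FiniteDimensional.proper ℂ E
  set f : ι → E → ℝ := fun i z => tr c (u i z) with hfd
  set g : E → ℝ := fun z => tr c (rlim U u z) with hgd
  have hf : ∀ i, IsPsh D fun z => (f i z : EReal) := fun i => (hu i).trunc c
  have hg : ∀ z ∈ D, rlim U (fun i z => (f i z : EReal)) z = g z := fun z hz => by
    rw [coe_tr (hb z hz), ← rlim_trunc]
    exact rlim_congr ((tendsto_snd.eventually (hD.mem_nhds hz)).mono fun p hp =>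
      coe_tr ((hu _).lt_top _ hp))
  have hgp : IsPsh D fun z => (g z : EReal) :=
    (isPsh_rlim hD (Eventually.of_forall fun i => (hu i).sub) hb).trunc c
  obtain ⟨δ, hδ, hsub⟩ := hK.exists_cthickening_subset_open hD hKD
  rw [show δ = 3 * (δ / 3) by ring] at hsub
  obtain ⟨C, hC⟩ := hgp.bdd hK.cthickening hsub
  have hC' : ∀ᶠ i in U, ∀ z ∈ cthickening (3 * (δ / 3)) K, f i z ≤ C + 1 :=
    (hartogs' hK.cthickening (g := fun _ => C + 1) (u := fun i z => (f i z : EReal))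
      (fun _ _ => continuousAt_const) fun z hz => by
        rw [hg z (hsub hz)]; exact lt_coe_add (hC z hz) one_pos).mono
      fun i hi z hz => (EReal.coe_lt_coe_iff.1 (hi z hz)).le
  have hc : ∀ z ∈ D, c ≤ g z := fun z hz => le_tr' (hb z hz)
  have hm : ∀ {h : E → ℝ}, (IsPsh D fun z => (h z : EReal)) → AEMeasurable h (μ.restrict K) :=
    fun h => (h.aemeasurable hD μ hK.measurableSet hKD).ereal_toReal
  set I := ∫⁻ z in K, ENNReal.ofReal (C + 1 - g z) ∂μ with hI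
  have hIt : I ≠ ⊤ := by
    refine ((setLIntegral_mono' hK.measurableSet (g := fun _ => ENNReal.ofReal (C + 1 - c))
      fun z hz => ENNReal.ofReal_le_ofReal (by linarith [hc z (hKD hz)])).trans_lt ?_).ne
    rw [setLIntegral_const]
    exact ENNReal.mul_lt_top ENNReal.ofReal_lt_top hK.measure_lt_top
  refine ENNReal.tendsto_nhds_zero.2 fun ε hε => ?_
  have hε3 : 0 < ε / 3 := ENNReal.div_pos hε.ne' (by simp)
  filter_upwards [hC', ev_pos_le μ hg hK hKD (hm hgp) (fun z hz => hc z (hKD hz)) hε3,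
    ev_neg_le μ U hD hf hg hK (by positivity) hsub hc hC' (ENNReal.lt_add_right hIt hε3.ne')]
    with i h1 h2 h3
  refine (ENNReal.add_le_add_iff_right hIt).1 ?_
  calc ∫⁻ z in K, ‖f i z - g z‖ₑ ∂μ + I
      = ∫⁻ z in K, (‖f i z - g z‖ₑ + ENNReal.ofReal (C + 1 - g z)) ∂μ :=
        (lintegral_add_left' ((hm (hf i)).sub (hm hgp)).enorm _).symm
    _ ≤ ∫⁻ z in K, (ENNReal.ofReal (C + 1 - f i z) + (ENNReal.ofReal (f i z - g z) +
          ENNReal.ofReal (f i z - g z))) ∂μ := by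
        refine setLIntegral_mono' hK.measurableSet fun z hz => ?_
        have e1 := h1 z (self_subset_cthickening K hz)
        have e2 := EReal.coe_le_coe_iff.1 (hC z (self_subset_cthickening K hz))
        rw [← ofReal_norm, Real.norm_eq_abs, ← ENNReal.ofReal_add (abs_nonneg _) (by linarith)]
        rcases le_total (g z) (f i z) with h | h
        · rw [← ENNReal.ofReal_add (by linarith) (by linarith),
            ← ENNReal.ofReal_add (by linarith) (by linarith), abs_of_nonneg (by linarith)]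
          exact ENNReal.ofReal_le_ofReal (by linarith)
        · rw [abs_of_nonpos (by linarith)]
          exact le_add_right (ENNReal.ofReal_le_ofReal (by linarith))
    _ ≤ (I + ε / 3) + (ε / 3 + ε / 3) := by
        rw [lintegral_add_left' (f := fun z => ENNReal.ofReal (C + 1 - f i z))
            (aemeasurable_const.sub (hm (hf i))).ennreal_ofReal,
          lintegral_add_left' (f := fun z => ENNReal.ofReal (f i z - g z))
            ((hm (hf i)).sub (hm hgp)).ennreal_ofReal]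
        exact add_le_add h3 (add_le_add h2 h2)
    _ = ε + I := by rw [add_assoc, ← add_assoc (ε / 3), ENNReal.add_thirds, add_comm]

end Crest.Agent.X261.Lim
end
end

-- ▼ part X261/Lim/F
section

/-!
# Row 261, package LIM (helper58), file `F`

Fast subsequences: `Sel 𝒰 p` says that every sequence picked in a suitable sequence of
`𝒰`-large sets has the property `p`.  Almost everywhere convergence of psh functions to their
relaxed limit along fast subsequences.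
-/

set_option autoImplicit false
set_option linter.dupNamespace false
set_option linter.unusedSectionVars false

open Set Filter Topology Metric MeasureTheory
open scoped ENNReal

noncomputable section

namespace Crest.Agent.X261.Lim

open Crest.Agent.X261.Psh Crest.Agent.X261.Ans

/-- `p` holds for all sufficiently fast sequences -/
def Sel {ι : Type*} (U : Filter ι) (p : (ℕ → ι) → Prop) : Prop :=
  ∃ B : ℕ → Set ι, (∀ m, B m ∈ U) ∧ ∀ l : ℕ → ι, (∀ᶠ j in atTop, l j ∈ B j) → p l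

namespace Sel

variable {ι : Type*} {U : Filter ι} {p p' : (ℕ → ι) → Prop}

theorem mono (h : Sel U p) (hp : ∀ l, p l → p' l) : Sel U p' :=
  let ⟨B, h1, h2⟩ := h; ⟨B, h1, fun l hl => hp l (h2 l hl)⟩

theorem and (h : Sel U p) (h' : Sel U p') : Sel U fun l => p l ∧ p' l := by
  obtain ⟨B, h1, h2⟩ := h
  obtain ⟨B', h1', h2'⟩ := h'
  exact ⟨fun m => B m ∩ B' m, fun m => inter_mem (h1 m) (h1' m), fun l hl =>
    ⟨h2 l (hl.mono fun _ h => h.1), h2' l (hl.mono fun _ h => h.2)⟩⟩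

theorem all_nat {p : ℕ → (ℕ → ι) → Prop} (h : ∀ t, Sel U (p t)) : Sel U fun l => ∀ t, p t l := by
  choose B h1 h2 using h
  refine ⟨fun m => ⋂ t ∈ Finset.range m, B t m, fun m =>
    (biInter_finset_mem _).2 fun t _ => h1 t m, fun l hl t => h2 t l ?_⟩
  filter_upwards [hl, eventually_gt_atTop t] with j h3 h4
  exact mem_iInter₂.1 h3 t (Finset.mem_range.2 h4)

theorem all {α : Type*} [Countable α] {p : α → (ℕ → ι) → Prop} (h : ∀ t, Sel U (p t)) :
    Sel U fun l => ∀ t, p t l := by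
  rcases isEmpty_or_nonempty α with hα | hα
  · exact ⟨fun _ => univ, fun _ => univ_mem, fun _ _ t => isEmptyElim t⟩
  obtain ⟨f, hf⟩ := exists_surjective_nat α
  exact (all_nat fun t => h (f t)).mono fun l hl t => by
    obtain ⟨m, rfl⟩ := hf t; exact hl m

theorem exists' [U.NeBot] (h : Sel U p) : ∃ l, p l := by
  obtain ⟨B, h1, h2⟩ := h
  choose l hl using fun m => Filter.nonempty_of_mem (h1 m)
  exact ⟨l, h2 l (Eventually.of_forall hl)⟩

end Sel

theorem sel_atTop {U : Filter ℕ} (h : U ≤ atTop) : Sel U fun l => Tendsto l atTop atTop :=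
  ⟨fun m => Ici m, fun m => h (Ici_mem_atTop m), fun _ hl => tendsto_atTop_mono' _ hl tendsto_id⟩

theorem sel_ae_zero {ι X : Type*} {U : Filter ι} [MeasurableSpace X] {ν : Measure X}
    {f : ι → X → ℝ≥0∞} (hf : ∀ i, AEMeasurable (f i) ν)
    (h : Tendsto (fun i => ∫⁻ x, f i x ∂ν) U (𝓝 0)) :
    Sel U fun l => ∀ᵐ x ∂ν, Tendsto (fun j => f (l j) x) atTop (𝓝 0) := by
  refine ⟨fun m => {i | ∫⁻ x, f i x ∂ν < 2⁻¹ ^ m}, fun m => h.eventually (gt_mem_nhds
    (ENNReal.pow_pos (by simp) m)), fun l hl => ?_⟩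
  obtain ⟨m, hm⟩ := eventually_atTop.1 hl
  have h1 : ∫⁻ x, ∑' j, f (l (j + m)) x ∂ν < ⊤ := by
    rw [lintegral_tsum fun j => hf _]
    refine lt_of_le_of_lt (ENNReal.tsum_le_tsum (g := fun j => 2⁻¹ ^ j) fun j => ?_) ?_
    · exact (hm (j + m) (Nat.le_add_left _ _)).le.trans
        (pow_le_pow_right_of_le_one' (by simp) (Nat.le_add_right _ _))
    · simp
  filter_upwards [ae_lt_top' (AEMeasurable.tsum fun j => hf _) h1.ne] with x hx
  exact (tendsto_add_atTop_iff_nat m).1 (ENNReal.tendsto_atTop_zero_of_tsum_ne_top hx.ne)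

theorem tendsto_of_tr {a : ℕ → EReal} {x : EReal} (ha : ∀ j, a j < ⊤) (hx : x < ⊤)
    (h : ∀ N : ℕ, Tendsto (fun j => tr (-N) (a j)) atTop (𝓝 (tr (-N) x))) :
    Tendsto a atTop (𝓝 x) := by
  have h' : ∀ N : ℕ, Tendsto (fun j => max (a j) ((-N : ℝ) : EReal)) atTop
      (𝓝 (max x ((-N : ℝ) : EReal))) := fun N => by
    have := (continuous_coe_real_ereal.tendsto _).comp (h N)
    rw [coe_tr hx] at this
    exact this.congr fun j => coe_tr (ha j)
  refine tendsto_order.2 ⟨fun b hb => ?_, fun b hb => ?_⟩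
  · obtain ⟨c, h1, h2⟩ := EReal.lt_iff_exists_real_btwn.1 hb
    obtain ⟨N, hN⟩ := exists_nat_ge (-c)
    filter_upwards [(h' N).eventually (lt_mem_nhds (h2.trans_le (le_max_left _ _)))] with j hj
    rcases lt_max_iff.1 hj with h3 | h3
    · exact h1.trans h3
    · exact absurd (EReal.coe_lt_coe_iff.1 h3) (by linarith)
  · obtain ⟨c, h1, h2⟩ := EReal.lt_iff_exists_real_btwn.1 hb
    obtain ⟨N, hN⟩ := exists_nat_gt (-c)
    filter_upwards [(h' N).eventually (gt_mem_nhds (max_lt h1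
      (EReal.coe_lt_coe_iff.2 (by linarith))))] with j hj
    exact ((le_max_left _ _).trans_lt hj).trans h2

variable {E : Type} [NormedAddCommGroup E] [NormedSpace ℂ E] [FiniteDimensional ℂ E]
  [MeasurableSpace E] [BorelSpace E] (μ : Measure E) [μ.IsAddHaarMeasure]

theorem measurable_tr (c : ℝ) : Measurable (tr c) :=
  measurable_ereal_toReal.comp (measurable_id.max measurable_const)

/-- almost everywhere convergence along fast sequences -/
theorem sel_ae {ι : Type*} (U : Ultrafilter ι) {D : Set E} (hD : IsOpen D) {u : ι → E → EReal}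
    (hu : ∀ i, IsPsh D (u i)) (hb : ∀ x ∈ D, rlim U u x < ⊤) :
    Sel U fun l => ∀ᵐ z ∂μ, z ∈ D → Tendsto (fun j => u (l j) z) atTop (𝓝 (rlim U u z)) := by
  have : ProperSpace E := FiniteDimensional.proper ℂ E
  have hU := isPsh_rlim hD (Eventually.of_forall fun i => (hu i).sub) hb
  choose! r hr hB using fun x (hx : x ∈ D) => exists_cball hD hx
  obtain ⟨t, ht, htc, hcv⟩ := TopologicalSpace.countable_cover_nhdsWithin (s := D)
    (f := fun x => closedBall x (r x))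
    fun x hx => mem_nhdsWithin_of_mem_nhds (closedBall_mem_nhds x (hr x hx))
  have := htc.to_subtype
  refine (Sel.all fun a : t × ℕ => sel_ae_zero (ν := μ.restrict (closedBall a.1 (r a.1)))
    (fun i => ?_) (l1_tr μ U hD hu hb (isCompact_closedBall _ _) (hB _ (ht a.1.2))
      (-(a.2 : ℝ)))).mono fun l hl => ?_
  · exact (((measurable_tr _).comp_aemeasurable ((hu i).aemeasurable hD μ measurableSet_closedBall
      (hB _ (ht a.1.2)))).sub ((measurable_tr _).comp_aemeasurable (hU.aemeasurable hD μ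
        measurableSet_closedBall (hB _ (ht a.1.2))))).enorm
  · filter_upwards [ae_all_iff.2 fun a : t × ℕ =>
      (ae_restrict_iff' measurableSet_closedBall).1 (hl a)] with z hz hzD
    obtain ⟨x, hx, hx'⟩ := mem_iUnion₂.1 (hcv hzD)
    refine tendsto_of_tr (fun j => (hu _).lt_top z hzD) (hb z hzD) fun N => ?_
    exact tendsto_sub_nhds_zero_iff.1 (tendsto_zero_iff_enorm_tendsto_zero.2 (hz (⟨x, hx⟩, N) hx'))

variable {M : Type} [TopologicalSpace M] {A : HA E M} {η : A.ι → E → ℝ}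

theorem tendsto_of_add_coe {a : ℕ → EReal} {x : EReal} {c : ℝ}
    (h : Tendsto (fun j => a j + (c : EReal)) atTop (𝓝 (x + c))) : Tendsto a atTop (𝓝 x) := by
  have := (EReal.continuousAt_add (p := (x + c, ((-c : ℝ) : EReal))) (Or.inr (EReal.coe_ne_bot _))
    (Or.inr (EReal.coe_ne_top _))).tendsto.comp (h.prodMk_nhds tendsto_const_nhds)
  simpa only [Function.comp_def, add_coe_neg] using this

theorem Fam.sel [Countable A.ι] {ι κ : Type*} {U : Ultrafilter ι} {O : κ → Set M} {S : Set M}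
    {u : κ → ι → M → EReal} (h : Fam A η U O S u) (hu : ∀ k i, WP A η (O k) (u k i))
    (hb : ∀ x, gl0 U O u x < ⊤) : Sel U fun l => Eqv.AE μ A fun x => x ∈ ⋃ k, O k →
      ∃ k, x ∈ O k ∧ Tendsto (fun j => u k (l j) x) atTop (𝓝 (gl U O u x)) := by
  have := HA.secondCountable A
  obtain ⟨T, hT, hTe⟩ := TopologicalSpace.isOpen_iUnion_countable O h.opn
  have := hT.to_subtype
  refine (Sel.all fun a : A.ι × T => sel_ae μ U (isOpen_ch A a.1 (h.opn a.2))
    (fun i => hu a.2 i a.1) fun z hz => ?_).mono fun l hl j => ?_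
  · rw [rlim_chart _ (h.cont _) hz.1, ← h.gl0_eq hz.2]
    exact add_lt_top' (hb _) (EReal.coe_lt_top _)
  · filter_upwards [ae_all_iff.2 fun k : T => hl (j, k)] with z hz hz1 hz2
    rw [← hTe] at hz2
    obtain ⟨k, hk, hk'⟩ := mem_iUnion₂.1 hz2
    have := hz ⟨k, hk⟩ ⟨hz1, hk'⟩
    rw [rlim_chart _ (h.cont _) hz1, ← h.gl_eq hk'] at this
    exact ⟨k, hk', tendsto_of_add_coe this⟩

theorem Thin.ae {S : Set M} (h : Thin A S) : Eqv.AE μ A fun x => x ∉ S := fun j => by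
  filter_upwards [measure_eq_zero_iff_ae_notMem.1 ((h j).null μ)] with z hz h1 h2
  exact hz ⟨h1, h2⟩

theorem Plr.ae {Z : Set M} (h : Plr A Z) : Eqv.AE μ A fun x => x ∉ Z := fun j => by
  have key : μ (ch A j Z) = 0 := by
    refine measure_null_of_locally_null _ fun z hz => ?_
    obtain ⟨U, v, hU, hzU, hv, hd, hZ⟩ := h j z hz.1
    refine ⟨ch A j Z ∩ U, inter_mem_nhdsWithin _ (hU.mem_nhds hzU),
      measure_mono_null (fun w hw => ?_) (hv.dn_ae μ hU hd)⟩
    exact fun h' => h' hw.2 (hZ w hw.2 hw.1.1 hw.1.2)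
  filter_upwards [measure_eq_zero_iff_ae_notMem.1 key] with z hz h1 h2
  exact hz ⟨h1, h2⟩

theorem ae_exists [Nonempty M] {p : M → Prop} (h : Eqv.AE μ A p) : ∃ x, p x := by
  obtain ⟨j, hj⟩ := A.cover (Classical.arbitrary M)
  have h1 : μ (A.e j).target ≠ 0 :=
    (A.e j).open_target.measure_ne_zero μ ⟨_, (A.e j).map_source hj⟩
  obtain ⟨z, hz, hz'⟩ := Measure.exists_mem_of_measure_ne_zero_of_ae h1
    ((ae_restrict_iff' (A.e j).open_target.measurableSet).2 (h j))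
  exact ⟨_, hz'⟩

theorem ae_prod {p : M → Prop} (h : Eqv.AE μ A p) :
    Eqv.AE (μ.prod μ) (A.prod A) fun q => p q.1 ∧ p q.2 := fun j => by
  filter_upwards [Measure.quasiMeasurePreserving_fst.ae (h j.1),
    Measure.quasiMeasurePreserving_snd.ae (h j.2)] with z h1 h2 hz
  exact ⟨h1 hz.1, h2 hz.2⟩

end Crest.Agent.X261.Lim
end
end

-- ▼ part X261/Lim/G
section

/-!
# Row 261, package LIM (helper58), file `G` : the theorem `limStmt`
-/

set_option autoImplicit false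
set_option linter.dupNamespace false
set_option linter.unusedSectionVars false

open Set Filter Topology Metric MeasureTheory

noncomputable section

namespace Crest.Agent.X261.Lim

open Crest.Agent.X261.Psh Crest.Agent.X261.Ans

variable {E : Type} [NormedAddCommGroup E] [NormedSpace ℂ E] [FiniteDimensional ℂ E]
  {M : Type} [TopologicalSpace M] {A : HA E M} {η : A.ι → E → ℝ}

theorem tendsto_xi {a b c : ℕ → EReal} {x y z : EReal} (hy : y ≠ ⊥) (hy' : y < ⊤) (hz : z ≠ ⊥)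
    (hz' : z < ⊤) (ha : Tendsto a atTop (𝓝 x)) (hb : Tendsto b atTop (𝓝 y))
    (hc : Tendsto c atTop (𝓝 z)) : Tendsto (fun j => a j - b j - c j) atTop (𝓝 (x - y - z)) := by
  have key : ∀ {a b : ℕ → EReal} {x y : EReal}, y ≠ ⊥ → y < ⊤ → Tendsto a atTop (𝓝 x) →
      Tendsto b atTop (𝓝 y) → Tendsto (fun j => a j - b j) atTop (𝓝 (x - y)) := by
    intro a b x y hy hy' ha hb
    exact (EReal.continuousAt_add (p := (x, -y)) (Or.inr (by simpa using hy'.ne))
      (Or.inr (by simpa using hy))).tendsto.comp (ha.prodMk_nhds hb.neg)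
  exact key hz hz' (key hy hy' ha hb) hc

namespace Pre

variable {G : Type} [Group G] [MulAction G M] (P : Pre A G η)

/-- `Ξ` at level `l` in the charts `k, k'` -/
def xl (q : ℕ) (k k' : P.κ) (l : ℕ) (x y : M) : EReal :=
  xi (P.s q k k' l) (P.ψ q k l) (P.ψ q k' l) x y

/-- the chart free limit of `Ξ` along the sequence `l` -/
def XI (l : ℕ → ℕ) (q : ℕ) (x y : M) : EReal :=
  ⨆ k, ⨆ k', ⨆ (_ : x ∈ P.O k ∧ y ∈ P.O k'), limsup (fun j => P.xl q k k' (l j) x y) atTop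

variable {P}

theorem top {q : ℕ} {k : P.κ} {l : ℕ} {x : M} (hx : x ∈ P.O k) : P.ψ q k l x < ⊤ :=
  (P.ψ_psh q k l).lt_top hx

theorem pt₁ (q : ℕ) {k k' : P.κ} {x : M} (hx : x ∈ P.O k \ P.S) (hx' : x ∈ P.O k') {ε : ℝ}
    (hε : 0 < ε) : ∀ᶠ l in atTop, P.ψ q k l x ≤ P.ψ q k' l x + ε :=
  ((P.law₁ q k k' x ⟨⟨hx.1, hx'⟩, hx.2⟩ ε hε).curry.mono fun _ h => h.self_of_nhds hx.2)

theorem xl_close (hη : ∀ j, ContinuousOn (η j) (A.e j).target) (q : ℕ) {k₁ k₂ k₁' k₂' : P.κ}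
    {x y : M} (hx : x ∈ P.O k₁ \ P.S) (hy : y ∈ P.O k₂ \ P.S) (hx' : x ∈ P.O k₁')
    (hy' : y ∈ P.O k₂') {ε : ℝ} (hε : 0 < ε) :
    ∀ᶠ l in atTop, P.xl q k₁ k₂ l x y ≤ P.xl q k₁' k₂' l x y + ε := by
  have hε' : 0 < ε / 3 := by positivity
  have h1 := ((P.fam₂ hη q).law (k₁, k₂) (k₁', k₂') (x, y) ⟨⟨⟨hx.1, hy.1⟩, hx', hy'⟩,
    not_or.2 ⟨hx.2, hy.2⟩⟩ _ hε').curry.mono fun _ h => h.self_of_nhds (not_or.2 ⟨hx.2, hy.2⟩)
  filter_upwards [h1, pt₁ q ⟨hx', hx.2⟩ hx.1 hε', pt₁ q ⟨hy', hy.2⟩ hy.1 hε'] with l h2 h3 h4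
  have := xi_close (P.fin q k₁ l x hx) (top hx.1) (P.fin q k₂ l y hy) (top hy.1)
    (P.fin q k₁' l x ⟨hx', hx.2⟩) (P.fin q k₂' l y ⟨hy', hy.2⟩) h2 h3 h4
  rwa [add_thirds] at this

theorem XI_eq (hη : ∀ j, ContinuousOn (η j) (A.e j).target) {l : ℕ → ℕ}
    (hl : Tendsto l atTop atTop) (q : ℕ) {k k' : P.κ} {x y : M} (hx : x ∈ P.O k \ P.S)
    (hy : y ∈ P.O k' \ P.S) : P.XI l q x y = limsup (fun j => P.xl q k k' (l j) x y) atTop :=
  le_antisymm (iSup_le fun _ => iSup_le fun _ => iSup_le fun h => limsup_le_close fun _ hε =>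
      hl.eventually (xl_close hη q ⟨h.1, hx.2⟩ ⟨h.2, hy.2⟩ hx.1 hy.1 hε))
    (le_iSup_of_le k (le_iSup_of_le k' (le_iSup_of_le ⟨hx.1, hy.1⟩ le_rfl)))

theorem xl_le (q : ℕ) {k k' : P.κ} (l : ℕ) {x y : M} (hx : x ∈ P.O k \ P.S)
    (hy : y ∈ P.O k' \ P.S) : P.xl q k k' l x y ≤ 0 :=
  xi_nonpos (P.fin q k l x hx) (top hx.1) (P.fin q k' l y hy) (top hy.1) (P.le q k k' l x hx y hy)

theorem xl_symm (q : ℕ) {k k' : P.κ} (l : ℕ) {x y : M} (hx : x ∈ P.O k) (hy : y ∈ P.O k') :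
    P.xl q k k' l x y = P.xl q k' k l y x := by
  unfold xl xi
  rw [P.s_symm q k k' l x hx y hy, sub_eq_add_neg, sub_eq_add_neg, sub_eq_add_neg, sub_eq_add_neg,
    add_right_comm]

theorem xl_inv (q : ℕ) (g : G) {k k' : P.κ} (l : ℕ) {x y : M} (hx : x ∈ P.O k) (hy : y ∈ P.O k') :
    P.xl q (P.σ g k) (P.σ g k') l (g • x) (g • y) = P.xl q k k' l x y := by
  unfold xl xi
  rw [P.s_inv q g k k' l x hx y hy, P.ψ_inv q g k l x hx, P.ψ_inv q g k' l y hy]

theorem good_smul (g : G) {k : P.κ} {x : M} (hx : x ∈ P.O k \ P.S) :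
    g • x ∈ P.O (P.σ g k) \ P.S :=
  ⟨(P.O_inv g k x).2 hx.1, fun h => hx.2 (by simpa using P.S_inv g⁻¹ _ h)⟩

theorem XI_tri (hη : ∀ j, ContinuousOn (η j) (A.e j).target) {l : ℕ → ℕ}
    (hl : Tendsto l atTop atTop) (q : ℕ) {k₁ k₂ k₃ : P.κ} {x y z : M} (hx : x ∈ P.O k₁ \ P.S)
    (hy : y ∈ P.O k₂ \ P.S) (hz : z ∈ P.O k₃ \ P.S) {b : ℝ} (h1 : P.XI l (q + 1) x y ≤ b)
    (h2 : P.XI l (q + 1) y z ≤ b) : P.XI l q x z ≤ ((P.lam q * b : ℝ) : EReal) := by
  rw [XI_eq hη hl _ hx hy] at h1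
  rw [XI_eq hη hl _ hy hz] at h2
  rw [XI_eq hη hl _ hx hz]
  refine le_coe_of_forall fun ε hε => limsup_le_of_le (by isBoundedDefault) ?_
  have h0 := P.lam_pos q
  have hδ : 0 < ε / (P.lam q + 1) := by positivity
  filter_upwards [hl.eventually (P.U q k₁ k₂ k₃ x hx y hy z hz _ hδ),
    eventually_lt_of_limsup_lt (lt_coe_add h1 hδ), eventually_lt_of_limsup_lt (lt_coe_add h2 hδ)]
    with j h3 h4 h5
  refine h3.trans ((add_le_coe (coe_mul_le h0.le (max_le h4.le h5.le)) le_rfl).trans (le_of_eq ?_))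
  congr 1
  field_simp
  ring

end Pre

/-- **LIM** -/
theorem limStmt : LimStmt := by
  intro E _ _ _ _ _ _ μ _ M _ _ A _ G _ _ η hol hη ⟨K₀, hK₀, hc⟩ P
  have : ContinuousConstSMul G M := ⟨fun g => continuous_iff_continuousAt.2 fun x => (hol g x).1⟩
  have : ProperSpace E := FiniteDimensional.proper ℂ E
  have : Countable (A.prod A).ι := inferInstanceAs (Countable (A.ι × A.ι))
  have hgood : Eqv.AE μ A fun x => x ∉ P.S ∧ x ∈ ⋃ k, P.O k := fun j => by
    filter_upwards [P.thin.ae μ j, P.plr.ae μ j] with z h1 h2 hz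
    exact ⟨h1 hz, not_not.1 (h2 hz)⟩
  obtain ⟨x₀, hx₀S, hx₀⟩ := ae_exists μ hgood
  obtain ⟨k₀, hk₀⟩ := mem_iUnion.1 hx₀
  have hOi : ∀ (g : G) k, ∀ x ∈ P.O k, g • x ∈ P.O (P.σ g k) := fun g k x hx => (P.O_inv g k x).2 hx
  choose n hn1 hn2 using fun q => exists_norm (P.fam₁ hη q) P.dsc P.thin hK₀ hc P.σ hOi
    (P.ψ_inv q) hk₀ (Eventually.of_forall fun i => P.fin q k₀ i x₀ ⟨hk₀, hx₀S⟩)
  let U : Ultrafilter ℕ := Ultrafilter.of atTop
  have hU : (U : Filter ℕ) ≤ atTop := Ultrafilter.of_le _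
  let ψ' : ℕ → P.κ → ℕ → M → EReal := fun q k i x => P.ψ q k i x + (n q i : ℝ)
  let O₂ : P.κ × P.κ → Set (M × M) := fun k => P.O k.1 ×ˢ P.O k.2
  let s' : ℕ → P.κ × P.κ → ℕ → M × M → EReal := fun q k i p =>
    P.s q k.1 k.2 i p + ((n q i + n q i : ℝ) : EReal)
  have F1 : ∀ q, Fam A η U P.O P.S (ψ' q) := fun q =>
    ((P.fam₁ hη q).add_const (n q)).filter_mono hU
  have F2 : ∀ q, Fam (A.prod A) (e2 η) U O₂ {p | p.1 ∈ P.S ∨ p.2 ∈ P.S} (s' q) := fun q =>
    ((P.fam₂ hη q).add_const fun i => n q i + n q i).filter_mono hU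
  let φ : ℕ → M → EReal := fun q => gl U P.O (ψ' q)
  let u : ℕ → M × M → EReal := fun q => gl U O₂ (s' q)
  have g1 : ∀ q x, gl0 U P.O (ψ' q) x ≤ 0 := fun q x => (gl0_mono_filter hU x).trans (hn1 q x)
  have g2 : ∀ q x, gl0 U O₂ (s' q) x ≤ 0 := fun q x =>
    (gl0_mono_filter hU x).trans (P.gl0₂_le hη q (hn1 q) x)
  have φ0 : ∀ q x, φ q x ≤ 0 := fun q => gl_le (g1 q)
  have u0 : ∀ q x, u q x ≤ 0 := fun q => gl_le (g2 q)
  have φp : ∀ q, WP A η univ (φ q) := fun q =>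
    (F1 q).wp_gl P.plr fun _ => ⟨0, Eventually.of_forall (g1 q)⟩
  have up : ∀ q, WP (A.prod A) (e2 η) univ (u q) := fun q =>
    (F2 q).wp_gl (plr_prod P.plr) fun _ => ⟨0, Eventually.of_forall (g2 q)⟩
  have φi : ∀ q (g : G) x, φ q (g • x) = φ q x := fun q =>
    gl_inv P.σ P.opn hOi fun g k i x hx => by simp only [ψ', P.ψ_inv q g k i x hx]
  have φae : ∀ q, Eqv.AE μ A fun x => φ q x ≠ ⊥ := fun q => by
    obtain ⟨x, hx⟩ := hn2 q U hU inferInstance
    exact (φp q).ae_ne_bot μ ((φp q).dn ⟨x, fun h => hx (le_bot_iff.1 (h ▸ gl0_le_gl x))⟩)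
  obtain ⟨x₁, hx₁⟩ := ae_exists μ (p := fun x => ∀ q, φ q x ≠ ⊥) fun j => by
    filter_upwards [ae_all_iff.2 fun q => φae q j] with z h1 hz q using h1 q hz
  obtain ⟨w, hw, hw1, hw2⟩ := exists_weights (fun q => φ0 q x₁) hx₁
  have hw0 : ∀ q, 0 ≤ w q := fun q => (hw q).le
  let Φ : M → EReal := fun x => wsum w fun q => φ q x
  have Φp : WP A η univ Φ := wp_wsum hη hw0 hw1 φp φ0
  have Φi : ∀ (g : G) x, Φ (g • x) = Φ x := fun g x => by simp only [Φ, φi]
  have Φφ : ∀ q x, Φ x ≤ w q * φ q x := fun q x => wsum_le hw0 (fun q => φ0 q x) q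
  have φf : ∀ q x, Φ x ≠ ⊥ → φ q x ≠ ⊥ := fun q x h h' => h (le_bot_iff.1 (by
    simpa [h', EReal.coe_mul_bot_of_pos (hw q)] using Φφ q x))
  have φt : ∀ q x, φ q x < ⊤ := fun q x => (φ0 q x).trans_lt EReal.zero_lt_top
  obtain ⟨l, hl, hl1, hl2⟩ := ((sel_atTop hU).and ((Sel.all fun q => (F1 q).sel μ
    (fun k i => (P.ψ_psh q k i).add_const _) fun x => (g1 q x).trans_lt EReal.zero_lt_top).and
    (Sel.all fun q => (F2 q).sel (μ.prod μ) (fun k i => (P.s_psh q k.1 k.2 i).add_const _)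
      fun x => (g2 q x).trans_lt EReal.zero_lt_top))).exists'
  let M0 : Set M := {x | x ∉ P.S ∧ (∃ k, x ∈ P.O k) ∧ Φ x ≠ ⊥ ∧
    ∀ q k, x ∈ P.O k → Tendsto (fun j => ψ' q k (l j) x) atTop (𝓝 (φ q x))}
  have hcl : ∀ q {k k' : P.κ} {x : M}, x ∉ P.S → x ∈ P.O k → x ∈ P.O k' → ∀ ε : ℝ, 0 < ε →
      ∀ᶠ j in atTop, ψ' q k (l j) x ≤ ψ' q k' (l j) x + ε := fun q k k' x h1 h2 h3 ε hε =>
    (hl.eventually (Pre.pt₁ q ⟨h2, h1⟩ h3 hε)).mono fun j hj => by
      simp only [ψ']; rw [add_right_comm]; exact add_le_add hj le_rfl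
  have M0ae : Eqv.AE μ A (· ∈ M0) := fun j => by
    filter_upwards [hgood j, Φp.ae_ne_bot μ (Φp.dn ⟨x₁, hw2⟩) j, ae_all_iff.2 fun q => hl1 q j]
      with z h1 h2 h3 hz
    refine ⟨(h1 hz).1, mem_iUnion.1 (h1 hz).2, h2 hz, fun q k hk => ?_⟩
    obtain ⟨k', hk', ht⟩ := h3 q hz (h1 hz).2
    exact tendsto_close (hcl q (h1 hz).1 hk hk') (hcl q (h1 hz).1 hk' hk) ht
  have XI0 : ∀ q, ∀ x ∈ M0, ∀ y ∈ M0, P.XI l q x y ≤ 0 := by
    intro q x ⟨h1, ⟨k, hk⟩, _⟩ y ⟨h2, ⟨k', hk'⟩, _⟩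
    rw [Pre.XI_eq hη hl q ⟨hk, h1⟩ ⟨hk', h2⟩]
    exact limsup_le_of_le (by isBoundedDefault)
      (Eventually.of_forall fun j => Pre.xl_le q _ ⟨hk, h1⟩ ⟨hk', h2⟩)
  have XIs : ∀ q, ∀ x ∈ M0, ∀ y ∈ M0, P.XI l q x y = P.XI l q y x := by
    intro q x ⟨h1, ⟨k, hk⟩, _⟩ y ⟨h2, ⟨k', hk'⟩, _⟩
    rw [Pre.XI_eq hη hl q ⟨hk, h1⟩ ⟨hk', h2⟩, Pre.XI_eq hη hl q ⟨hk', h2⟩ ⟨hk, h1⟩]
    simp only [Pre.xl_symm q _ hk hk']
  refine ⟨⟨⟨hol, K₀, hK₀, hc, η, fun j z hz => ⟨_, ((cont_at (hη j) hz).abs.eventually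
      (gt_mem_nhds (lt_add_one _))).mono fun _ h => h.le⟩, Φ, fun j => ch_univ A j ▸ Φp j, Φi, M0,
      M0ae, ?_, fun x hx => hx.2.2.1,
      fun q p => wsum w fun j => if j = q then u q p else φ j p.1 + φ j p.2, fun q j => ?_,
      fun q x y => w q * P.XI l q x y, fun q j => ?_, fun q x hx y hy => ?_,
      fun q x hx y hy => by rw [XIs q x hx y hy], fun q g x hx y hy => ?_, fun q => ?_,
      fun q => ?_⟩, rfl, fun _ => wsum_le_zero, fun x hx => ⟨hx.1, hx.2.1⟩, l, hl, w, hw,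
      fun q k k' x hx y hy => congrArg ((w q : EReal) * ·) (Pre.XI_eq hη hl q hx hy)⟩⟩
  · rintro g x ⟨h1, ⟨k, hk⟩, h2, h3⟩
    have h4 := Pre.good_smul g (P := P) ⟨hk, h1⟩
    refine ⟨h4.2, ⟨_, h4.1⟩, by rwa [Φi], fun q k' hk' => ?_⟩
    have h5 := h3 q _ (by simpa using hOi g⁻¹ k' _ hk')
    rw [φi]
    refine h5.congr fun j => ?_
    have := P.ψ_inv q g⁻¹ k' (l j) _ hk'
    rw [inv_smul_smul] at this
    simp only [ψ', this]
  · refine ch_univ (A.prod A) j ▸ wp_wsum (cont_e2 hη) hw0 hw1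
      (f := fun j p => if j = q then u q p else φ j p.1 + φ j p.2) (fun i => ?_) (fun i p => ?_) j
    · by_cases hi : i = q
      · simpa only [hi, if_true] using up q
      · simpa only [hi, if_false, univ_prod_univ] using wp_prod (φp i) (φp i)
    · split_ifs
      exacts [u0 q p, add_nonpos (φ0 i _) (φ0 i _)]
  · filter_upwards [ae_prod μ M0ae j, hl2 q j] with z h1 h2 hz
    set p := ((A.prod A).e j).symm z
    obtain ⟨hx, hy⟩ := h1 hz
    obtain ⟨k₁, hk₁⟩ := hx.2.1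
    obtain ⟨k₂, hk₂⟩ := hy.2.1
    obtain ⟨k, hk, ht⟩ := h2 hz (mem_iUnion.2 ⟨(k₁, k₂), mk_mem_prod hk₁ hk₂⟩)
    have e1 : P.XI l q p.1 p.2 = u q p - φ q p.1 - φ q p.2 := by
      rw [Pre.XI_eq hη hl q ⟨hk.1, hx.1⟩ ⟨hk.2, hy.1⟩]
      refine Tendsto.limsup_eq ((tendsto_xi (φf q _ hx.2.2.1) (φt q _) (φf q _ hy.2.2.1) (φt q _)
        ht (hx.2.2.2 q _ hk.1) (hy.2.2.2 q _ hk.2)).congr fun i => ?_)
      exact xi_shift _ _ (P.fin q _ _ _ ⟨hk.1, hx.1⟩) (Pre.top hk.1) (P.fin q _ _ _ ⟨hk.2, hy.1⟩)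
        (Pre.top hk.2)
    have e2 : (fun i => if i = q then u q p else φ i p.1 + φ i p.2) =
        fun i => (if i = q then P.XI l q p.1 p.2 else 0) + (φ i p.1 + φ i p.2) := by
      funext i
      split_ifs with hi
      · rw [hi, e1, xi_add (φf q _ hx.2.2.1) (φt q _) (φf q _ hy.2.2.1) (φt q _)]
      · rw [zero_add]
    change wsum w _ = _
    rw [e2, wsum_add hw0 (fun i => by split_ifs; exacts [XI0 q _ hx _ hy, le_rfl])
      (fun i => add_nonpos (φ0 i _) (φ0 i _)), wsum_single hw0 q (XI0 q _ hx _ hy),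
      wsum_add hw0 (fun i => φ0 i _) (fun i => φ0 i _), add_assoc]
  · exact mul_nonpos_of_nonneg_of_nonpos (EReal.coe_nonneg.2 (hw0 q)) (XI0 q x hx y hy)
  · obtain ⟨k, hk⟩ := hx.2.1
    obtain ⟨k', hk'⟩ := hy.2.1
    rw [Pre.XI_eq hη hl q (Pre.good_smul g ⟨hk, hx.1⟩) (Pre.good_smul g ⟨hk', hy.1⟩),
      Pre.XI_eq hη hl q ⟨hk, hx.1⟩ ⟨hk', hy.1⟩]
    simp only [Pre.xl_inv q g _ hk hk']
  · have h0 := P.lam_pos q
    have h1 := hw q
    have h2 := hw (q + 1)
    refine ⟨w q * P.lam q / w (q + 1), 0, by positivity, fun x hx y hy z hz a _ h3 h4 => ?_⟩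
    obtain ⟨k₁, hk₁⟩ := hx.2.1
    obtain ⟨k₂, hk₂⟩ := hy.2.1
    obtain ⟨k₃, hk₃⟩ := hz.2.1
    refine (coe_mul_le h1.le (Pre.XI_tri hη hl q ⟨hk₁, hx.1⟩ ⟨hk₂, hy.1⟩ ⟨hk₃, hz.1⟩
      (le_of_coe_mul_le h2 h3) (le_of_coe_mul_le h2 h4))).trans (le_of_eq ?_)
    congr 1
    field_simp
    ring
  · refine ⟨w q * P.c q, mul_pos (hw q) (P.c_pos q), fun j z₀ hz₀ => ?_⟩
    obtain ⟨C, V, hV, hVt, hC⟩ := unif_pole hη (P.c_pos q) j hz₀
    refine ⟨w q * C, V, hV, fun z hz z' hz' hy hx r hr hzr => ?_⟩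
    obtain ⟨k, hk⟩ := hx.2.1
    obtain ⟨k', hk'⟩ := hy.2.1
    have hF := (P.fam_slc hη q (n q) ⟨hk', hy.1⟩).comp hl
    have hF0 := P.gl0_slc_le hη q (hn1 q) ⟨hk', hy.1⟩ hl
    have h1 := P.slc_pole hη q (hn1 q) ⟨hk', hy.1⟩ hl ((A.e j).map_target (hVt hz))
    rw [(A.e j).right_inv (hVt hz)] at h1
    have h2 := hC _ (hF.wp_gl P.plr fun _ => ⟨0, Eventually.of_forall hF0⟩) (gl_le hF0) z hz h1
      z' hz' r hr (by rwa [norm_sub_rev])
    rw [hF.gl_eq hk] at h2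
    have h3 : P.XI l q ((A.e j).symm z') ((A.e j).symm z) + φ q ((A.e j).symm z') ≤
        ((P.c q * Real.log r + C : ℝ) : EReal) := by
      rw [Pre.XI_eq hη hl q ⟨hk, hx.1⟩ ⟨hk', hy.1⟩]
      refine (limsup_add_le' (φf q _ hx.2.2.1) (φt q _) (hx.2.2.2 q k hk)).trans
        (le_trans (le_of_eq ?_) ((limsup_le_rlim' _).trans h2))
      congr 1
      funext i
      exact xi_slice _ (P.fin q _ _ _ ⟨hk, hx.1⟩) (Pre.top hk) (P.fin q _ _ _ ⟨hk', hy.1⟩)
        (Pre.top hk')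
    change w q * P.XI l q _ _ + Φ _ ≤ _
    rw [XIs q _ hy _ hx]
    refine (add_le_add le_rfl (Φφ q _)).trans ?_
    rw [← coe_mul_add (hw0 q)]
    refine (coe_mul_le (hw0 q) h3).trans (le_of_eq ?_)
    congr 1; ring

end Crest.Agent.X261.Lim
end
end

-- ▼ part X261/EnP/Main

/-!
# Row 261, EN assembly (helper19), file `Main`

`enK_of : DatStmt → Sk.EnK` (limit + weak Kesten property).
-/

set_option autoImplicit false
set_option linter.dupNamespace false
set_option linter.unusedSectionVars false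

open Set Filter Topology MeasureTheory

noncomputable section

namespace Crest.Agent.X261.EnP

open Crest.Agent.R275.Geo Crest.Agent.R275.Core144 Crest.Agent.R275.GC293
open Crest.Agent.R273.Defs_333 Crest.Agent.R273.Kah_333 Crest.Agent.R273.UCov_914
open Crest.Agent.R281.Kp_487 (KP)
open Crest.Agent.X261.Ans (HA)
open Crest.Agent.X261.Top (Fol)
open Crest.Agent.X261.Rn (wtD Kes)
open Crest.Agent.X261.Pole Crest.Agent.X261.Two Crest.Agent.X261.BT
open Crest.Agent.X261.Cov.K (pullKP pos_pull slow_pull iso_deck)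
open Crest.Agent.X261.Cov.E (CM pm overlap isProb_pm countable_fib)

/-- the target of the geometric side -/
def DatStmt : Prop :=
  ∀ (n : ℕ) (X : Type) [TopologicalSpace X] [T2Space X] [CompactSpace X] [ConnectedSpace X]
    (A : Atl n X) [Finite A.ι], GoodA A → Part A → ∀ (H : KP A) (hH : H.Pos)
    (G : Type) [Group G] [Countable G] (D : MonD A G), ConnectedSpace (D.cov G) →
    ∀ (p : ℕ), 1 ≤ p → p ≤ n → ∀ (F : Fol D p) (h : HM F.L)
      [MeasurableSpace (D.cov G)] [BorelSpace (D.cov G)] (hS : Slow (pullKP D G H)),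
      ∃ k0 : ℝ, 0 < k0 ∧ Nonempty (Dat (HA.of (D.atl G)) G (wtD D h)
        (lsOf (pos_pull D G hH) hS) (Cn p) k0 p)

variable {n : ℕ} {X : Type} [TopologicalSpace X] [T2Space X] {A : Atl n X} [Finite A.ι]
  {G : Type} [Group G] [Countable G] {D : MonD A G} [MeasurableSpace (D.cov G)]
  [BorelSpace (D.cov G)] {H : KP A}

theorem kes {hH : (pullKP D G H).Pos} {hS : Slow (pullKP D G H)} {η : (D.atl G).ι → Cn n → ℝ}
    {p : ℕ} {k0 : ℝ} (E : Dat (HA.of (D.atl G)) G η (lsOf hH hS) (Cn p) k0 p) (hk : 0 < k0)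
    (hη : ∀ j, ContinuousOn (η j) ((HA.of (D.atl G)).e j).target) (T : (E.pre hk hη).Out volume) :
    Kes T.T := by
  borelize X
  have hc : (0 : ℝ) < (p + 1) * 2 ^ (p + 1) := by positivity
  refine ⟨0, ((p + 1) * 2 ^ (p + 1))⁻¹, 0, inv_pos.2 hc, fun Φ x hx h => ?_⟩
  obtain ⟨k, hxk, l, hl⟩ := Dat.exists_level hk hη T Φ hx h
  have hm := mc_pos (p := p) hk l
  have hg : ∀ g ∈ Φ, g • x ∈ E.O (E.σ g k) \ E.S := fun g _ =>
    ⟨(E.O_inv g k x).2 hxk.1, (T.good _ (T.T.M0_inv g x hx)).1⟩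
  obtain ⟨ψ, hψ, h1, h2⟩ := (msOf hH hS).kesten (ι := Φ) (Y := fun g => E.Y (E.σ g k) (g.1 • x))
    (E.asy k x hxk) (fun g => E.asy _ _ (hg g g.2)) (lv_pos l)
    (m := 12 * (p + 1) * 2 ^ (p + 1)) (by positivity) (τ := fun g f y => f (g.1⁻¹ • y))
    (fun g f hf => QQ.iso (iso_deck D H g.1⁻¹) hf)
    (fun g => Eventually.of_forall fun s f _ hf => by
      simp only [Dat.Y, E.t_inv g k x hxk.1]
      exact E.X_inv g k _ (E.t_mem k x hxk.1) s _ f hf) (fun g => hl g g.2) hm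
  have h3 := kesten_const (p := p) hk.le (lv_pos l) (m' := mq p 0) (by
    unfold mq; push_cast; linarith)
  obtain ⟨K, hK, hK0⟩ := hψ.1.exists_cpt
  have hC : CM D (xiM (pullKP D G H) ψ) := ⟨QQ.xi_fin hH hψ, K, hK, by
    rw [← Measure.restrict_apply_univ, QQ.xi_off hH hψ hK.isClosed hK0]; rfl⟩
  have := hC.1
  rcases Φ.eq_empty_or_nonempty with rfl | ⟨g₀, hg₀⟩
  · exact ⟨Finsupp.single 1 1, R189.isProb_single _, fun g hg => absurd hg (Finset.notMem_empty g)⟩
  have h0 : xiM (pullKP D G H) ψ ≠ 0 := fun h0 => by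
    obtain ⟨ν, n1, -, n3⟩ := h2 ⟨g₀, hg₀⟩
    have n4 : ν = 0 := le_antisymm (n1.trans_eq h0) (Measure.zero_le _)
    have := (div_pos hm hc).trans_le (h3.trans n3)
    simp [n4] at this
  refine ⟨_, isProb_pm hC h0, fun g hg => ?_⟩
  obtain ⟨ν, n1, n2, n3⟩ := h2 ⟨g, hg⟩
  have n4 : ν ≤ (xiM (pullKP D G H) ψ).map (g • ·) :=
    n2.trans_eq ((QQ.xi_iso hH (iso_deck D H g⁻¹) hψ).trans (by
      congr 1
      funext y
      simp))
  have hp : 0 < (xiM (pullKP D G H) ψ).real univ :=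
    have : NeZero (xiM (pullKP D G H) ψ) := ⟨h0⟩; measureReal_univ_pos
  refine (overlap hC g hC n4 n1 le_rfl h0).trans (sub_le_sub_left ?_ _)
  have n5 : (xiM (pullKP D G H) ψ).real univ ≤ mc k0 p (lv l) + mc k0 p (lv l) := h1
  have n6 := h3.trans n3
  rw [div_le_iff₀ hc] at n6
  rw [le_div_iff₀ hp, inv_mul_le_iff₀ hc]
  linarith

theorem enK_of (hD : DatStmt) : Sk.EnK := by
  intro n X _ _ _ _ A _ hA P H hH G _ D hc p h1 h2 F h
  have : Countable G := countable_fib D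
  borelize (D.cov G)
  obtain ⟨k0, hk, ⟨E⟩⟩ := hD n X A hA P H hH G D hc p h1 h2 F h (slow_pull D G P hH)
  have hη : ∀ j, ContinuousOn (wtD D h j) ((HA.of (D.atl G)).e j).target := fun j =>
    (((D.pullHM (F := G) h).sm j).continuousOn.log fun z hz =>
      ((D.pullHM (F := G) h).pos j _ (((D.atl G).e j).map_target hz)).ne').neg
  have : Nontrivial (Cn n) := by
    have : Nonempty (Fin n) := ⟨⟨0, by omega⟩⟩
    infer_instance
  have : Countable (HA.of (D.atl G)).ι := inferInstanceAs (Countable (D.atl G).ι)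
  obtain ⟨T⟩ := Lim.limStmt (Cn n) volume (D.cov G) (HA.of (D.atl G)) G (wtD D h)
    (Ans.Brg.hol_deck D) hη D.exists_fund (E.pre hk hη)
  exact ⟨T.T, T.wt, T.φ_le, kes E hk hη T⟩

end Crest.Agent.X261.EnP
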